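import Mathlib

/-!
Row 326 (S0503), part M1: the generic labelled linear network. Definitions.

A program acts on a family of wires `W`; every wire carries an element of an `R`-module `M`
(an array) and a *label* (a square matrix over a commutative ring `k`, the frame of the wire).
* `add w w' c` : wire `w` receives `x w + c • x w'` (allowed when both labels agree);
* `atom w e u v` : wire `w` moves from label `e` to label `e + vecMulVec u v`; physically an
  operator `act e u v` is applied to the wire (one child call), logically nothing happens.
-/

set_option autoImplicit false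

namespace Crest.Agent.X326.Net

open Matrix

/-- instructions of a labelled network -/
inductive Instr (W R k ι : Type) where
  | add (w w' : W) (c : R) : Instr W R k ι
  | atom (w : W) (e : Matrix ι ι k) (u v : ι → k) : Instr W R k ι

section Basic

variable {W R k ι : Type}

/-- is the instruction a frame move (a child call)? -/
def Instr.isAtom : Instr W R k ι → Bool
  | .add _ _ _ => false
  | .atom _ _ _ _ => true

/-- number of frame moves (child calls) of a program -/
def natoms (P : List (Instr W R k ι)) : ℕ := P.countP Instr.isAtom

variable [DecidableEq W]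

/-- `Valid l P l'`: started with the labelling `l`, every `add` joins two wires with the same
label, every `atom` starts at the current label of its wire, and the final labelling is `l'`. -/
def Valid [CommRing k] :
    (W → Matrix ι ι k) → List (Instr W R k ι) → (W → Matrix ι ι k) → Prop
  | l, [], l' => l = l'
  | l, .add w w' _ :: P, l' => l w = l w' ∧ Valid l P l'
  | l, .atom w e u v :: P, l' => l w = e ∧ Valid (Function.update l w (e + vecMulVec u v)) P l'

/-- one instruction, the frame moves being executed by `act` -/
def Instr.exec [CommRing R] {M : Type} [AddCommGroup M] [Module R M]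
    (act : Matrix ι ι k → (ι → k) → (ι → k) → M → M) (x : W → M) : Instr W R k ι → W → M
  | .add w w' c => Function.update x w (x w + c • x w')
  | .atom w e u v => Function.update x w (act e u v (x w))

/-- physical semantics of a program -/
def run [CommRing R] {M : Type} [AddCommGroup M] [Module R M]
    (act : Matrix ι ι k → (ι → k) → (ι → k) → M → M) (P : List (Instr W R k ι)) (x : W → M) :
    W → M :=
  P.foldl (Instr.exec act) x

/-- logical semantics of a program: frame moves do nothing -/
def logi [CommRing R] {M : Type} [AddCommGroup M] [Module R M]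
    (P : List (Instr W R k ι)) (x : W → M) : W → M :=
  run (fun _ _ _ y => y) P x

end Basic

/-- `Dec sym r A`: the matrix `A` is a sum of `r` rank-one atoms `vecMulVec u v`
(with `u = v` when `sym` holds). -/
def Dec {k ι : Type} [CommRing k] (sym : Prop) (r : ℕ) (A : Matrix ι ι k) : Prop :=
  ∃ L : List ((ι → k) × (ι → k)), L.length = r ∧ (sym → ∀ q ∈ L, q.1 = q.2) ∧
    A = (L.map fun q => vecMulVec q.1 q.2).sum

/-- triple Kronecker product, read through a coordinate map `e` -/
def K3 {k η ι : Type} [CommRing k] (e : ι → η × η × η) (A B C : Matrix η η k) : Matrix ι ι k :=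
  Matrix.of fun i j => A (e i).1 (e j).1 * B (e i).2.1 (e j).2.1 * C (e i).2.2 (e j).2.2

/-- The base data of a network. `T` = triples, `C` = central wires, `η` = ground set (of size
`g + 2`), `R` = scalars, `k` = ring of the labels. `nb S T` = neighbours, `eps` = the unit
label on `k^η` (a multiple of the identity), `p S` = the rank-one label of `S`.
`G i T` : central wire `i` gathers `G i T • x T`; `Rm S i` : target `S` receives `Rm S i • C i`;
`J S T` : target `S` receives `J S T • A (S,T)` for neighbours `S`, `T`. -/
structure NetData (R k T C η : Type) [CommRing R] [CommRing k] [Fintype C] [DecidableEq T]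
    (g : ℕ) (sym : Prop) where
  nb : T → T → Bool
  eps : Matrix η η k
  p : T → Matrix η η k
  G : C → T → R
  Rm : T → C → R
  J : T → T → R
  nb_symm : ∀ S T', nb S T' = nb T' S
  scalar : ∀ S T', (if nb S T' = true then J S T' else 0) + ∑ i, Rm S i * G i T' =
    if S = T' then 1 else 0
  dec_eps : Dec sym (g + 2) eps
  dec_p : ∀ S, Dec sym 1 (p S)
  dec_one : ∀ S, Dec sym (g + 1) (eps - p S)
  dec_two : ∀ S T', nb S T' = true → Dec sym g (eps - p S - p T')
  two_eq : sym → (2 : k) = 0

/-- The specification met by the whole network on `nW` wires: the program `P` is valid from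
`lin` to `lout`, logically it is the wire permutation `ρ` (the content of wire `w` ends on wire
`ρ w`), every content gains the label `full`, and in the symmetric case all atoms and labels
are symmetric. -/
structure NetSpec (R : Type) {k ι : Type} [CommRing R] [CommRing k] (sym : Prop) (full : Matrix ι ι k)
    {nW : ℕ} (P : List (Instr (Fin nW) R k ι)) (ρ : Fin nW ≃ Fin nW)
    (lin lout : Fin nW → Matrix ι ι k) : Prop where
  valid : Valid lin P lout
  label : ∀ w, lout (ρ w) = lin w + full
  logical : ∀ (M : Type) [AddCommGroup M] [Module R M] (x : Fin nW → M) (w : Fin nW),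
    logi P x (ρ w) = x w
  symm : sym → ∀ w e u v, Instr.atom w e u v ∈ P → u = v ∧ e.IsSymm
  symm_in : sym → ∀ w, (lin w).IsSymm

/-- Statement of the main theorem of M1 (proved in `Net/Main.lean` as `exists_network`):
`v = card T`, `c = card C`, `h = g + 2`; `c0` is the price of doubling an atom (`1` in general,
`0` when `2 = 0`). -/
def MainStatement : Prop :=
  ∀ (R k T C η ι : Type) [CommRing R] [CommRing k] [Fintype T] [Fintype C] [DecidableEq T]
    (g : ℕ) (sym : Prop) (D : NetData R k T C η g sym) (e : ι → η × η × η) (c0 : ℕ)
    (_ : ∀ U : Matrix ι ι k, Dec sym 1 U → Dec sym c0 (U + U)),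
    ∃ (nW : ℕ) (P : List (Instr (Fin nW) R k ι)) (ρ : Fin nW ≃ Fin nW)
      (lin lout : Fin nW → Matrix ι ι k),
      NetSpec R sym (K3 e D.eps D.eps D.eps) P ρ lin lout ∧
      2 * Fintype.card T ^ 3 ≤ nW ∧
      nW ≤ 2 * Fintype.card T ^ 3 +
        3 * Fintype.card T ^ 2 * (Fintype.card T ^ 2 + Fintype.card C) ∧
      natoms P + 2 * Fintype.card T ^ 3 =
        nW * (g + 2) ^ 3 + 6 * Fintype.card T ^ 2 * Fintype.card C * (g + 2) +
          c0 * Fintype.card T ^ 3

end Crest.Agent.X326.Net
private theorem rz_c239ba88b5 : type_of% @_root_.Crest.Agent.X326.Net.Instr.exec.eq_1 := @_root_.Crest.Agent.X326.Net.Instr.exec.eq_1 -- L47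
private theorem rz_85ae596ee3 : type_of% @_root_.Crest.Agent.X326.Net.Instr.isAtom.eq_1 := @_root_.Crest.Agent.X326.Net.Instr.isAtom.eq_1 -- L29
private theorem rz_799b037455 : type_of% @_root_.Crest.Agent.X326.Net.Valid.eq_def := @_root_.Crest.Agent.X326.Net.Valid.eq_def -- L40
private theorem rz_e490b814b8 : type_of% @_root_.Crest.Agent.X326.Net.Valid.eq_1 := @_root_.Crest.Agent.X326.Net.Valid.eq_1 -- L40
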