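import Crest.Agent.X326.Net.Frame
import Crest.Agent.X326.Net.Defs

-- ▼ part X326/Net/Run
section

/-!
Row 326, M1: the relation `Run` (existence of a valid program with given labels, number of atoms
and logical effect) and its composition rules.
-/

set_option autoImplicit false

namespace Crest.Agent.X326.Net

open Matrix

variable {W R k ι : Type} [CommRing R] [CommRing k] [DecidableEq W]

/-- there is a valid program from `l` to `l'` with `n` atoms and logical effect `F` -/
def Run (sym : Prop) (l l' : W → Matrix ι ι k) (n : ℕ) (F : (W → R) → W → R) : Prop :=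
  ∃ P : List (Instr W R k ι), Valid l P l' ∧ natoms P = n ∧
    (sym → ∀ w e u v, Instr.atom w e u v ∈ P → u = v) ∧ ∀ x : W → R, logi P x = F x

variable {sym : Prop}

theorem Run.refl (l : W → Matrix ι ι k) : Run (R := R) sym l l 0 (fun x => x) :=
  ⟨[], rfl, rfl, by simp, fun _ => rfl⟩

theorem Run.congr {l l' : W → Matrix ι ι k} {n n' : ℕ} {F F' : (W → R) → W → R}
    (h : Run sym l l' n F) (hn : n = n') (hF : ∀ x, F x = F' x) : Run sym l l' n' F' := by
  obtain ⟨P, h1, h2, h3, h4⟩ := h
  exact ⟨P, h1, h2.trans hn, h3, fun x => (h4 x).trans (hF x)⟩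

theorem Run.trans {l l' l'' : W → Matrix ι ι k} {n n' : ℕ} {F F' : (W → R) → W → R}
    (h : Run sym l l' n F) (h' : Run sym l' l'' n' F') :
    Run sym l l'' (n + n') (fun x => F' (F x)) := by
  obtain ⟨P, h1, h2, h3, h4⟩ := h
  obtain ⟨P', h1', h2', h3', h4'⟩ := h'
  refine ⟨P ++ P', h1.append h1', by rw [natoms_append, h2, h2'], ?_, ?_⟩
  · intro hs w e u v hm
    rcases List.mem_append.1 hm with hm | hm
    · exact h3 hs w e u v hm
    · exact h3' hs w e u v hm
  · intro x
    rw [logi_append, h4, h4']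

theorem Run.add {l : W → Matrix ι ι k} {w w' : W} (h : l w = l w') (c : R) :
    Run sym l l 0 (fun x => Function.update x w (x w + c * x w')) :=
  ⟨[Instr.add w w' c], ⟨h, rfl⟩, rfl, by simp, fun _ => rfl⟩

theorem Run.dec (l : W → Matrix ι ι k) (w : W) {r : ℕ} {A : Matrix ι ι k} (hA : Dec sym r A) :
    Run (R := R) sym l (Function.update l w (l w + A)) r (fun x => x) := by
  obtain ⟨L, rfl, h, rfl⟩ := hA
  induction L generalizing l with
  | nil => simpa using Run.refl l
  | cons q L ih =>
    have h1 : Run (R := R) sym l (Function.update l w (l w + vecMulVec q.1 q.2)) 1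
        (fun x => x) := by
      refine ⟨[Instr.atom w (l w) q.1 q.2], ⟨rfl, rfl⟩, by simp, ?_, fun x => ?_⟩
      · intro hs w' e u v hm
        simp only [List.mem_singleton] at hm
        cases hm
        exact h hs q List.mem_cons_self
      · rw [logi_cons_atom]; rfl
    have h2 := ih (Function.update l w (l w + vecMulVec q.1 q.2))
      fun hs q hq => h hs q (List.mem_cons_of_mem _ hq)
    have h3 := h1.trans h2
    simp only [Function.update_self, Function.update_idem] at h3
    simp only [List.map_cons, List.sum_cons, List.length_cons, ← add_assoc]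
    exact h3.congr (by ring) fun _ => rfl

/-- renaming of wires -/
def Instr.rename {W₀ : Type} (f : W₀ → W) : Instr W₀ R k ι → Instr W R k ι
  | .add w w' c => .add (f w) (f w') c
  | .atom w e u v => .atom (f w) e u v

section Embed

variable {W₀ : Type} [DecidableEq W₀]

omit [CommRing R] in
theorem valid_rename {f : W₀ → W} (hf : Function.Injective f) {P : List (Instr W₀ R k ι)}
    {l₀ l₀' : W₀ → Matrix ι ι k} (h : Valid l₀ P l₀') (l l' : W → Matrix ι ι k)
    (h1 : ∀ a, l (f a) = l₀ a) (h2 : ∀ a, l' (f a) = l₀' a)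
    (h3 : ∀ w, (∀ a, f a ≠ w) → l' w = l w) : Valid l (P.map (Instr.rename f)) l' := by
  induction P generalizing l l₀ with
  | nil =>
    simp only [Valid] at h
    subst h
    simp only [List.map_nil, Valid]
    funext w
    by_cases hw : ∃ a, f a = w
    · obtain ⟨a, rfl⟩ := hw
      rw [h1, h2]
    · push Not at hw
      exact (h3 w hw).symm
  | cons i P ih =>
    cases i with
    | add w w' c =>
      simp only [Valid] at h
      simp only [List.map_cons, Instr.rename, Valid]
      exact ⟨by rw [h1, h1, h.1], ih h.2 l h1 h3⟩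
    | atom w e u v =>
      simp only [Valid] at h
      simp only [List.map_cons, Instr.rename, Valid]
      refine ⟨by rw [h1, h.1], ih h.2 _ ?_ ?_⟩
      · intro a
        by_cases ha : a = w
        · subst ha; simp
        · rw [Function.update_of_ne ha, Function.update_of_ne (fun h => ha (hf h)), h1]
      · intro z hz
        rw [Function.update_of_ne (hz w).symm, h3 z hz]

omit [CommRing k] in
theorem logi_rename {f : W₀ → W} (hf : Function.Injective f) (P : List (Instr W₀ R k ι))
    {M : Type} [AddCommGroup M] [Module R M] (x : W → M) :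
    (∀ a, logi (P.map (Instr.rename f)) x (f a) = logi P (fun a => x (f a)) a) ∧
      ∀ w, (∀ a, f a ≠ w) → logi (P.map (Instr.rename f)) x w = x w := by
  induction P generalizing x with
  | nil => exact ⟨fun _ => rfl, fun _ _ => rfl⟩
  | cons i P ih =>
    cases i with
    | atom w e u v =>
      simp only [List.map_cons, Instr.rename, logi_cons_atom]
      exact ih x
    | add w w' c =>
      simp only [List.map_cons, Instr.rename, logi_cons_add]
      obtain ⟨h1, h2⟩ := ih (Function.update x (f w) (x (f w) + c • x (f w')))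
      refine ⟨fun a => ?_, fun z hz => ?_⟩
      · rw [h1]
        congr 1
        funext b
        by_cases hb : b = w
        · subst hb; simp
        · rw [Function.update_of_ne hb, Function.update_of_ne (fun h => hb (hf h))]
      · rw [h2 z hz, Function.update_of_ne (hz w).symm]

omit [CommRing R] [CommRing k] [DecidableEq W] [DecidableEq W₀] in
theorem natoms_rename (f : W₀ → W) (P : List (Instr W₀ R k ι)) :
    natoms (P.map (Instr.rename f)) = natoms P := by
  induction P with
  | nil => rfl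
  | cons i P ih => cases i <;> simp [Instr.rename, ih]

omit [CommRing R] [CommRing k] [DecidableEq W] [DecidableEq W₀] in
theorem mem_rename {f : W₀ → W} {P : List (Instr W₀ R k ι)} {w : W} {e : Matrix ι ι k}
    {u v : ι → k} (h : Instr.atom w e u v ∈ P.map (Instr.rename f)) :
    ∃ a, Instr.atom a e u v ∈ P := by
  obtain ⟨i, hi, hi'⟩ := List.mem_map.1 h
  cases i with
  | add a b c => cases hi'
  | atom a e' u' v' =>
    simp only [Instr.rename, Instr.atom.injEq] at hi'
    obtain ⟨-, rfl, rfl, rfl⟩ := hi'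
    exact ⟨a, hi⟩

/-- a run on a sub-family of wires -/
theorem Run.embed {f : W₀ → W} (hf : Function.Injective f) {l₀ l₀' : W₀ → Matrix ι ι k} {n : ℕ}
    {F₀ : (W₀ → R) → W₀ → R} (h : Run sym l₀ l₀' n F₀) {l l' : W → Matrix ι ι k}
    {F : (W → R) → W → R}
    (h1 : ∀ a, l (f a) = l₀ a) (h2 : ∀ a, l' (f a) = l₀' a)
    (h3 : ∀ w, (∀ a, f a ≠ w) → l' w = l w)
    (h4 : ∀ x a, F x (f a) = F₀ (fun a => x (f a)) a)
    (h5 : ∀ x w, (∀ a, f a ≠ w) → F x w = x w) : Run sym l l' n F := by
  obtain ⟨P, hv, hn, hs, hl⟩ := h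
  refine ⟨P.map (Instr.rename f), valid_rename hf hv l l' h1 h2 h3, by rw [natoms_rename, hn],
    ?_, fun x => ?_⟩
  · intro hsym w e u v hm
    obtain ⟨a, ha⟩ := mem_rename hm
    exact hs hsym a e u v ha
  · obtain ⟨g1, g2⟩ := logi_rename hf P x
    funext w
    by_cases hw : ∃ a, f a = w
    · obtain ⟨a, rfl⟩ := hw
      rw [g1, h4, hl]
    · push Not at hw
      rw [g2 w hw, h5 x w hw]

/-- independent runs on disjoint sub-families of wires -/
theorem Run.par {I : Type} [Fintype I] {f : I → W₀ → W}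
    (hf : ∀ i a j b, f i a = f j b → i = j ∧ a = b)
    {l₀ l₀' : I → W₀ → Matrix ι ι k} {n : I → ℕ} {F₀ : I → (W₀ → R) → W₀ → R}
    (h : ∀ i, Run sym (l₀ i) (l₀' i) (n i) (F₀ i)) {l l' : W → Matrix ι ι k}
    {F : (W → R) → W → R}
    (h1 : ∀ i a, l (f i a) = l₀ i a) (h2 : ∀ i a, l' (f i a) = l₀' i a)
    (h3 : ∀ w, (∀ i a, f i a ≠ w) → l' w = l w)
    (h4 : ∀ x i a, F x (f i a) = F₀ i (fun a => x (f i a)) a)
    (h5 : ∀ x w, (∀ i a, f i a ≠ w) → F x w = x w) : Run sym l l' (∑ i, n i) F := by
  classical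
  have key : ∀ s : Finset I, Run sym l
      (fun w => if ∃ i ∈ s, ∃ a, f i a = w then l' w else l w) (∑ i ∈ s, n i)
      (fun x w => if ∃ i ∈ s, ∃ a, f i a = w then F x w else x w) := by
    intro s
    induction s using Finset.induction_on with
    | empty => simpa using Run.refl l
    | insert j s hj ih =>
      have hnot : ∀ a, ¬ ∃ i ∈ s, ∃ b, f i b = f j a := by
        rintro a ⟨i, hi, b, hb⟩
        exact hj ((hf _ _ _ _ hb).1 ▸ hi)
      have hyes : ∀ a, ∃ i ∈ insert j s, ∃ b, f i b = f j a :=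
        fun a => ⟨j, Finset.mem_insert_self _ _, a, rfl⟩
      have hiff : ∀ w, (∀ a, f j a ≠ w) →
          ((∃ i ∈ insert j s, ∃ b, f i b = w) ↔ ∃ i ∈ s, ∃ b, f i b = w) := by
        intro w hw
        constructor
        · rintro ⟨i, hi, b, hb⟩
          rcases Finset.mem_insert.1 hi with rfl | hi
          · exact absurd hb (hw b)
          · exact ⟨i, hi, b, hb⟩
        · rintro ⟨i, hi, b, hb⟩
          exact ⟨i, Finset.mem_insert_of_mem hi, b, hb⟩
      have step : Run sym (fun w => if ∃ i ∈ s, ∃ a, f i a = w then l' w else l w)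
          (fun w => if ∃ i ∈ insert j s, ∃ a, f i a = w then l' w else l w) (n j)
          (fun x w => if h : ∃ a, f j a = w then F₀ j (fun a => x (f j a)) h.choose else x w) := by
        refine (h j).embed (f := f j) (fun a b hab => (hf _ _ _ _ hab).2) ?_ ?_ ?_ ?_ ?_
        · intro a
          simp only [if_neg (hnot a), h1]
        · intro a
          simp only [if_pos (hyes a), h2]
        · intro w hw
          simp only [hiff w hw]
        · intro x a
          have hex : ∃ b, f j b = f j a := ⟨a, rfl⟩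
          rw [dif_pos hex, (hf _ _ _ _ hex.choose_spec).2]
        · intro x w hw
          rw [dif_neg (by push Not; exact hw)]
      refine (ih.trans step).congr (by rw [Finset.sum_insert hj]; ring) ?_
      intro x
      funext w
      by_cases hw : ∃ a, f j a = w
      · rw [dif_pos hw]
        obtain ⟨a, rfl⟩ := hw
        rw [if_pos (hyes a), h4]
        have hex : ∃ b, f j b = f j a := ⟨a, rfl⟩
        rw [(hf _ _ _ _ hex.choose_spec).2]
        congr 1
        funext b
        exact if_neg (hnot b)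
      · rw [dif_neg hw]
        push Not at hw
        simp only [hiff w hw]
  have h6 := key Finset.univ
  have e1 : (fun w => if ∃ i ∈ (Finset.univ : Finset I), ∃ a, f i a = w then l' w else l w)
      = l' := by
    funext w
    split_ifs with hw
    · rfl
    · push Not at hw
      exact (h3 w fun i a => hw i (Finset.mem_univ _) a).symm
  rw [e1] at h6
  refine h6.congr rfl fun x => ?_
  funext w
  split_ifs with hw
  · rfl
  · push Not at hw
    exact (h5 x w fun i a => hw i (Finset.mem_univ _) a).symm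

end Embed

/-- all wires change their labels -/
theorem Run.relabel [Fintype W] {l l' : W → Matrix ι ι k} (c : W → ℕ)
    (h : ∀ w, Dec sym (c w) (l' w - l w)) : Run (R := R) sym l l' (∑ w, c w) (fun x => x) := by
  refine Run.par (W₀ := Unit) (f := fun w _ => w) (l₀ := fun w _ => l w) (l₀' := fun w _ => l' w)
    (F₀ := fun _ x => x) (fun i _ j _ hij => ⟨hij, rfl⟩) (fun w => ?_) (fun _ _ => rfl)
    (fun _ _ => rfl) (fun w hw => absurd rfl (hw w ())) (fun _ _ _ => rfl) (fun _ _ _ => rfl)
  have := Run.dec (R := R) (fun _ : Unit => l w) () (h w)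
  have e : Function.update (fun _ : Unit => l w) () (l w + (l' w - l w)) = fun _ => l' w := by
    funext a; simp
  rwa [e] at this

/-- one layer of additions: targets `tw a` receive combinations of sources `sw b` -/
theorem Run.layer {α β : Type} [Fintype α] [Fintype β] {l : W → Matrix ι ι k} (tw : α → W)
    (sw : β → W) (htw : Function.Injective tw) (hd : ∀ a b, tw a ≠ sw b) (N : α → β → R)
    (hl : ∀ a b, N a b ≠ 0 → l (tw a) = l (sw b)) {F : (W → R) → W → R}
    (h1 : ∀ x a, F x (tw a) = x (tw a) + ∑ b, N a b * x (sw b))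
    (h2 : ∀ x w, (∀ a, tw a ≠ w) → F x w = x w) : Run sym l l 0 F := by
  classical
  have key : ∀ s : Finset (α × β), Run sym l l 0
      (fun x w => x w + ∑ q ∈ s, if tw q.1 = w then N q.1 q.2 * x (sw q.2) else 0) := by
    intro s
    induction s using Finset.induction_on with
    | empty => simpa using Run.refl l
    | insert q s hq ih =>
      by_cases hN : N q.1 q.2 = 0
      · refine ih.congr rfl fun x => ?_
        funext w
        rw [Finset.sum_insert hq]
        simp [hN]
      · refine (ih.trans (Run.add (hl _ _ hN) (N q.1 q.2))).congr rfl fun x => ?_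
        funext w
        rw [Finset.sum_insert hq]
        have h0 : (∑ q' ∈ s, if tw q'.1 = sw q.2 then N q'.1 q'.2 * x (sw q'.2) else 0) = 0 :=
          Finset.sum_eq_zero fun q' _ => if_neg (hd _ _)
        by_cases hw : w = tw q.1
        · subst hw
          simp only [Function.update_self, h0, if_true]
          ring
        · rw [Function.update_of_ne hw, if_neg (Ne.symm hw), zero_add]
  refine (key Finset.univ).congr rfl fun x => ?_
  funext w
  by_cases hw : ∃ a, tw a = w
  · obtain ⟨a, rfl⟩ := hw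
    rw [h1, Fintype.sum_prod_type]
    congr 1
    rw [Finset.sum_eq_single a]
    · simp
    · intro a' _ ha'
      exact Finset.sum_eq_zero fun b _ => if_neg fun h => ha' (htw h)
    · simp
  · push Not at hw
    rw [h2 x w hw, Finset.sum_eq_zero fun q _ => if_neg (hw q.1), add_zero]

end Crest.Agent.X326.Net
private theorem rz_0538b3fb4a : type_of% @_root_.Crest.Agent.X326.Net.Instr.rename.eq_1 := @_root_.Crest.Agent.X326.Net.Instr.rename.eq_1 -- L70
end

-- ▼ part X326/Net/Invoc
section

/-!
Row 326, M1: one invocation of the motif (8 rows with dirty scratch wires), forward (`y += x`)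
and reverse (`x -= y`), with its labels and its number of atoms.
-/

set_option autoImplicit false

namespace Crest.Agent.X326.Net

open Matrix

variable {R k T C η ι : Type} [CommRing R] [CommRing k] [Fintype C] [DecidableEq T]
  {g : ℕ} {sym : Prop}

/-- side wires: ordered neighbour pairs (X-triple, Y-triple) -/
abbrev Nbr (D : NetData R k T C η g sym) : Type := {q : T × T // D.nb q.1 q.2 = true}

/-- wires of one invocation: X bank, Y bank, side wires, central wires -/
abbrev W0 (D : NetData R k T C η g sym) : Type := T ⊕ T ⊕ (Nbr D ⊕ C)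

variable (D : NetData R k T C η g sym)

/-- a function on the wires of one invocation, from its four parts -/
def st {α : Type} (a b : T → α) (c : Nbr D → α) (d : C → α) : W0 D → α :=
  Sum.elim a (Sum.elim b (Sum.elim c d))

/-- X wire -/
abbrev wX (t : T) : W0 D := Sum.inl t
/-- Y wire -/
abbrev wY (t : T) : W0 D := Sum.inr (Sum.inl t)
/-- side wire -/
abbrev wA (q : Nbr D) : W0 D := Sum.inr (Sum.inr (Sum.inl q))
/-- central wire -/
abbrev wC (i : C) : W0 D := Sum.inr (Sum.inr (Sum.inr i))

section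
variable {α : Type} (a b : T → α) (c : Nbr D → α) (d : C → α)
@[simp] theorem st_X (t : T) : st D a b c d (wX D t) = a t := rfl
@[simp] theorem st_Y (t : T) : st D a b c d (wY D t) = b t := rfl
@[simp] theorem st_A (q : Nbr D) : st D a b c d (wA D q) = c q := rfl
@[simp] theorem st_C (i : C) : st D a b c d (wC D i) = d i := rfl
end

variable [Fintype T] [DecidableEq C]

theorem relab {fx fy fx' fy' : T → Matrix ι ι k} {fa fa' : Nbr D → Matrix ι ι k}
    {fc fc' : C → Matrix ι ι k} (a b c d : ℕ)
    (hx : ∀ t, Dec sym a (fx' t - fx t)) (hy : ∀ t, Dec sym b (fy' t - fy t))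
    (ha : ∀ q, Dec sym c (fa' q - fa q)) (hc : ∀ i, Dec sym d (fc' i - fc i)) :
    Run (R := R) sym (st D fx fy fa fc) (st D fx' fy' fa' fc')
      (Fintype.card T * a + Fintype.card T * b + Fintype.card (Nbr D) * c + Fintype.card C * d)
      (fun x => x) := by
  refine (Run.relabel (st D (fun _ => a) (fun _ => b) (fun _ => c) (fun _ => d)) ?_).congr ?_
    fun _ => rfl
  · rintro (t | t | q | i)
    · exact hx t
    · exact hy t
    · exact ha q
    · exact hc i
  · simp only [Fintype.sum_sum_type, st, Sum.elim_inl, Sum.elim_inr, Finset.sum_const,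
      Finset.card_univ, smul_eq_mul]
    ring

/-- `y_S += s Σ J S T A_(T,S)` -/
def opYA (s : R) (x : W0 D → R) : W0 D → R :=
  st D (fun t => x (wX D t))
    (fun S => x (wY D S) + ∑ q : Nbr D, (if q.1.2 = S then s * D.J S q.1.1 else 0) * x (wA D q))
    (fun q => x (wA D q)) (fun i => x (wC D i))

/-- `x_S += s Σ J S T A_(S,T)` -/
def opXA (s : R) (x : W0 D → R) : W0 D → R :=
  st D
    (fun S => x (wX D S) + ∑ q : Nbr D, (if q.1.1 = S then s * D.J S q.1.2 else 0) * x (wA D q))
    (fun t => x (wY D t)) (fun q => x (wA D q)) (fun i => x (wC D i))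

/-- `y_S += s Σ R S i C_i` -/
def opYC (s : R) (x : W0 D → R) : W0 D → R :=
  st D (fun t => x (wX D t)) (fun S => x (wY D S) + ∑ i, (s * D.Rm S i) * x (wC D i))
    (fun q => x (wA D q)) (fun i => x (wC D i))

/-- `x_S += s Σ R S i C_i` -/
def opXC (s : R) (x : W0 D → R) : W0 D → R :=
  st D (fun S => x (wX D S) + ∑ i, (s * D.Rm S i) * x (wC D i)) (fun t => x (wY D t))
    (fun q => x (wA D q)) (fun i => x (wC D i))

/-- `A_(S,T) += s x_S` -/
def opAX (s : R) (x : W0 D → R) : W0 D → R :=
  st D (fun t => x (wX D t)) (fun t => x (wY D t))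
    (fun q => x (wA D q) + s * x (wX D q.1.1)) (fun i => x (wC D i))

/-- `A_(S,T) += s y_T` -/
def opAY (s : R) (x : W0 D → R) : W0 D → R :=
  st D (fun t => x (wX D t)) (fun t => x (wY D t))
    (fun q => x (wA D q) + s * x (wY D q.1.2)) (fun i => x (wC D i))

/-- `C_i += s Σ G i T x_T` -/
def opCX (s : R) (x : W0 D → R) : W0 D → R :=
  st D (fun t => x (wX D t)) (fun t => x (wY D t)) (fun q => x (wA D q))
    (fun i => x (wC D i) + ∑ t, (s * D.G i t) * x (wX D t))

/-- `C_i += s Σ G i T y_T` -/
def opCY (s : R) (x : W0 D → R) : W0 D → R :=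
  st D (fun t => x (wX D t)) (fun t => x (wY D t)) (fun q => x (wA D q))
    (fun i => x (wC D i) + ∑ t, (s * D.G i t) * x (wY D t))

section Layers

variable {fx fy : T → Matrix ι ι k} {fa : Nbr D → Matrix ι ι k} {fc : C → Matrix ι ι k}

theorem run_YA (s : R) (h : ∀ q : Nbr D, fy q.1.2 = fa q) :
    Run sym (st D fx fy fa fc) (st D fx fy fa fc) 0 (opYA D s) := by
  refine Run.layer (wY D) (wA D) (fun a b h => by simpa using h) (fun a b => by simp)
    (fun S q => if q.1.2 = S then s * D.J S q.1.1 else 0) ?_ (fun x S => rfl) ?_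
  · intro S q hq
    by_cases hS : q.1.2 = S
    · subst hS; exact h q
    · simp [hS] at hq
  · rintro x (t | t | q | i) hw
    · rfl
    · exact absurd rfl (hw t)
    · rfl
    · rfl

theorem run_XA (s : R) (h : ∀ q : Nbr D, fx q.1.1 = fa q) :
    Run sym (st D fx fy fa fc) (st D fx fy fa fc) 0 (opXA D s) := by
  refine Run.layer (wX D) (wA D) (fun a b h => by simpa using h) (fun a b => by simp)
    (fun S q => if q.1.1 = S then s * D.J S q.1.2 else 0) ?_ (fun x S => rfl) ?_
  · intro S q hq
    by_cases hS : q.1.1 = S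
    · subst hS; exact h q
    · simp [hS] at hq
  · rintro x (t | t | q | i) hw
    · exact absurd rfl (hw t)
    · rfl
    · rfl
    · rfl

theorem run_YC (s : R) (h : ∀ t i, fy t = fc i) :
    Run sym (st D fx fy fa fc) (st D fx fy fa fc) 0 (opYC D s) := by
  refine Run.layer (wY D) (wC D) (fun a b h => by simpa using h) (fun a b => by simp)
    (fun S i => s * D.Rm S i) (fun S i _ => h S i) (fun x S => rfl) ?_
  rintro x (t | t | q | i) hw
  · rfl
  · exact absurd rfl (hw t)
  · rfl
  · rfl

theorem run_XC (s : R) (h : ∀ t i, fx t = fc i) :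
    Run sym (st D fx fy fa fc) (st D fx fy fa fc) 0 (opXC D s) := by
  refine Run.layer (wX D) (wC D) (fun a b h => by simpa using h) (fun a b => by simp)
    (fun S i => s * D.Rm S i) (fun S i _ => h S i) (fun x S => rfl) ?_
  rintro x (t | t | q | i) hw
  · exact absurd rfl (hw t)
  · rfl
  · rfl
  · rfl

theorem run_AX (s : R) (h : ∀ q : Nbr D, fa q = fx q.1.1) :
    Run sym (st D fx fy fa fc) (st D fx fy fa fc) 0 (opAX D s) := by
  refine Run.layer (wA D) (wX D) (fun a b h => by simpa using h) (fun a b => by simp)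
    (fun q t => if q.1.1 = t then s else 0) ?_ (fun x q => ?_) ?_
  · intro q t hq
    by_cases hS : q.1.1 = t
    · subst hS; exact h q
    · simp [hS] at hq
  · simp [opAX]
  · rintro x (t | t | q | i) hw
    · rfl
    · rfl
    · exact absurd rfl (hw q)
    · rfl

theorem run_AY (s : R) (h : ∀ q : Nbr D, fa q = fy q.1.2) :
    Run sym (st D fx fy fa fc) (st D fx fy fa fc) 0 (opAY D s) := by
  refine Run.layer (wA D) (wY D) (fun a b h => by simpa using h) (fun a b => by simp)
    (fun q t => if q.1.2 = t then s else 0) ?_ (fun x q => ?_) ?_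
  · intro q t hq
    by_cases hS : q.1.2 = t
    · subst hS; exact h q
    · simp [hS] at hq
  · simp [opAY]
  · rintro x (t | t | q | i) hw
    · rfl
    · rfl
    · exact absurd rfl (hw q)
    · rfl

theorem run_CX (s : R) (h : ∀ i t, fc i = fx t) :
    Run sym (st D fx fy fa fc) (st D fx fy fa fc) 0 (opCX D s) := by
  refine Run.layer (wC D) (wX D) (fun a b h => by simpa using h) (fun a b => by simp)
    (fun i t => s * D.G i t) (fun i t _ => h i t) (fun x S => rfl) ?_
  rintro x (t | t | q | i) hw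
  · rfl
  · rfl
  · rfl
  · exact absurd rfl (hw i)

theorem run_CY (s : R) (h : ∀ i t, fc i = fy t) :
    Run sym (st D fx fy fa fc) (st D fx fy fa fc) 0 (opCY D s) := by
  refine Run.layer (wC D) (wY D) (fun a b h => by simpa using h) (fun a b => by simp)
    (fun i t => s * D.G i t) (fun i t _ => h i t) (fun x S => rfl) ?_
  rintro x (t | t | q | i) hw
  · rfl
  · rfl
  · rfl
  · exact absurd rfl (hw i)

end Layers

omit [DecidableEq C] in
theorem sum_nbr (f : T × T → R) :
    ∑ q : Nbr D, f q.1 = ∑ a, ∑ b, if D.nb a b = true then f (a, b) else 0 := by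
  rw [← Fintype.sum_prod_type (f := fun q : T × T => if D.nb q.1 q.2 = true then f q else 0),
    ← Finset.sum_filter]
  exact (Finset.sum_subtype _ (by simp) f).symm

omit [DecidableEq C] in
theorem key_aux (S : T) (x : T → R) :
    ∑ t, (if D.nb S t = true then D.J S t else 0) * x t +
      ∑ i, D.Rm S i * ∑ t, D.G i t * x t = x S := by
  simp only [Finset.mul_sum, ← mul_assoc]
  rw [Finset.sum_comm, ← Finset.sum_add_distrib]
  simp only [← Finset.sum_mul, ← add_mul, D.scalar]
  simp

omit [DecidableEq C] in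
theorem key_fwd (S : T) (x : T → R) :
    ∑ q : Nbr D, (if q.1.2 = S then D.J S q.1.1 else 0) * x q.1.1 +
      ∑ i, D.Rm S i * ∑ t, D.G i t * x t = x S := by
  rw [← key_aux D S x, sum_nbr D (fun q => (if q.2 = S then D.J S q.1 else 0) * x q.1)]
  congr 1
  refine Finset.sum_congr rfl fun a _ => ?_
  rw [Finset.sum_eq_single S]
  · rw [D.nb_symm]; simp
  · intro b _ hb; simp [hb]
  · simp

omit [DecidableEq C] in
theorem key_rev (S : T) (x : T → R) :
    ∑ q : Nbr D, (if q.1.1 = S then D.J S q.1.2 else 0) * x q.1.2 +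
      ∑ i, D.Rm S i * ∑ t, D.G i t * x t = x S := by
  rw [← key_aux D S x, sum_nbr D (fun q => (if q.1 = S then D.J S q.2 else 0) * x q.2)]
  congr 1
  rw [Finset.sum_eq_single S]
  · simp
  · intro b _ hb; simp [hb]
  · simp

omit [DecidableEq C] in
/-- the eight forward rows give `y += x` -/
theorem fwd_eq (x : W0 D → R) :
    opAX D (-1) (opCX D (-1) (opYA D 1 (opYC D 1 (opCX D 1 (opAX D 1 (opYC D (-1)
      (opYA D (-1) x))))))) =
    st D (fun t => x (wX D t)) (fun t => x (wY D t) + x (wX D t)) (fun q => x (wA D q))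
      (fun i => x (wC D i)) := by
  funext w
  rcases w with t | t | q | i
  · rfl
  · have h := key_fwd D t (fun t => x (wX D t))
    simp only [opAX, opCX, opYA, opYC, st_X, st_Y, st_A, st_C, one_mul, neg_mul, mul_add,
      Finset.sum_add_distrib, Finset.sum_neg_distrib]
    have e : ∀ q : Nbr D, (if q.1.2 = t then -D.J t q.1.1 else 0) * x (wA D q) =
        -((if q.1.2 = t then D.J t q.1.1 else 0) * x (wA D q)) := by
      intro q; split_ifs <;> simp
    simp only [e, Finset.sum_neg_distrib]
    linear_combination h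
  · simp [opAX, opCX, opYA, opYC]
  · simp [opAX, opCX, opYA, opYC]

omit [DecidableEq C] in
/-- the eight reverse rows give `x -= y` -/
theorem rev_eq (x : W0 D → R) :
    opXA D 1 (opXC D 1 (opAY D (-1) (opCY D (-1) (opXC D (-1) (opXA D (-1) (opCY D 1
      (opAY D 1 x))))))) =
    st D (fun t => x (wX D t) - x (wY D t)) (fun t => x (wY D t)) (fun q => x (wA D q))
      (fun i => x (wC D i)) := by
  funext w
  rcases w with t | t | q | i
  · have h := key_rev D t (fun t => x (wY D t))
    simp only [opAY, opCY, opXA, opXC, st_X, st_Y, st_A, st_C, one_mul, neg_mul, mul_add,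
      Finset.sum_add_distrib, Finset.sum_neg_distrib, mul_neg]
    have e : ∀ (q : Nbr D) (z : R), (if q.1.1 = t then -D.J t q.1.2 else 0) * z =
        -((if q.1.1 = t then D.J t q.1.2 else 0) * z) := by
      intro q z; split_ifs <;> simp
    simp only [e, Finset.sum_neg_distrib]
    linear_combination -h
  · rfl
  · simp [opAY, opCY, opXA, opXC]
  · simp [opAY, opCY, opXA, opXC]

end Crest.Agent.X326.Net
end

-- ▼ part X326/Net/Sched
section

/-!
Row 326, M1: the label schedule of one invocation and the two invocation lemmas.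
`βB U` stands for `B ⊗ U ⊗ Q`, `βP U` for `P ⊗ U ⊗ Q`.
-/

set_option autoImplicit false

namespace Crest.Agent.X326.Net

open Matrix

variable {R k T C η ι : Type} [CommRing R] [CommRing k] [Fintype C] [DecidableEq T]
  {g : ℕ} {sym : Prop} (D : NetData R k T C η g sym) [Fintype T] [DecidableEq C]
  (βB βP : Matrix η η k →+ Matrix ι ι k) (full : Matrix ι ι k)

/-- labels on entry -/
def labIn : W0 D → Matrix ι ι k :=
  st D (fun t => βB (D.p t) + βP (D.p t)) (fun t => βB (D.p t)) (fun _ => 0) (fun _ => 0)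

/-- labels on exit -/
def labOut : W0 D → Matrix ι ι k :=
  st D (fun _ => βB D.eps + βP D.eps) (fun t => βB D.eps + βP (D.eps - D.p t))
    (fun _ => full) (fun _ => full)

/-- number of atoms of one invocation -/
def invCost (nB nF : ℕ) : ℕ :=
  2 * Fintype.card T * ((nB + 1) * (g + 1)) +
    (Fintype.card (Nbr D) + Fintype.card C) * ((nB + 1) * (g + 2) + nF) +
      Fintype.card C * (2 * (g + 2))

/-- the schedule of labels, for arbitrary gate rows `F0 … F7` -/
theorem schedule {nB nF : ℕ}
    (hB : ∀ r U, Dec sym r U → Dec sym (nB * r) (βB U))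
    (hP : ∀ r U, Dec sym r U → Dec sym r (βP U))
    (hF : Dec sym nF (full - (βB D.eps + βP D.eps)))
    {F0 F1 F2 F3 F4 F5 F6 F7 : (W0 D → R) → W0 D → R}
    (h0 : ∀ (fx fy : T → Matrix ι ι k) (fa : Nbr D → Matrix ι ι k) (fc : C → Matrix ι ι k),
      (∀ q : Nbr D, fy q.1.2 = fa q) → Run sym (st D fx fy fa fc) (st D fx fy fa fc) 0 F0)
    (h1 : ∀ (fx fy : T → Matrix ι ι k) (fa : Nbr D → Matrix ι ι k) (fc : C → Matrix ι ι k),
      (∀ t i, fy t = fc i) → Run sym (st D fx fy fa fc) (st D fx fy fa fc) 0 F1)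
    (h2 : ∀ (fx fy : T → Matrix ι ι k) (fa : Nbr D → Matrix ι ι k) (fc : C → Matrix ι ι k),
      (∀ q : Nbr D, fx q.1.1 = fa q) → Run sym (st D fx fy fa fc) (st D fx fy fa fc) 0 F2)
    (h3 : ∀ (fx fy : T → Matrix ι ι k) (fa : Nbr D → Matrix ι ι k) (fc : C → Matrix ι ι k),
      (∀ t i, fx t = fc i) → Run sym (st D fx fy fa fc) (st D fx fy fa fc) 0 F3)
    (h4 : ∀ (fx fy : T → Matrix ι ι k) (fa : Nbr D → Matrix ι ι k) (fc : C → Matrix ι ι k),
      (∀ t i, fy t = fc i) → Run sym (st D fx fy fa fc) (st D fx fy fa fc) 0 F4)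
    (h5 : ∀ (fx fy : T → Matrix ι ι k) (fa : Nbr D → Matrix ι ι k) (fc : C → Matrix ι ι k),
      (∀ q : Nbr D, fy q.1.2 = fa q) → Run sym (st D fx fy fa fc) (st D fx fy fa fc) 0 F5)
    (h6 : ∀ (fx fy : T → Matrix ι ι k) (fa : Nbr D → Matrix ι ι k) (fc : C → Matrix ι ι k),
      (∀ t i, fx t = fc i) → Run sym (st D fx fy fa fc) (st D fx fy fa fc) 0 F6)
    (h7 : ∀ (fx fy : T → Matrix ι ι k) (fa : Nbr D → Matrix ι ι k) (fc : C → Matrix ι ι k),
      (∀ q : Nbr D, fx q.1.1 = fa q) → Run sym (st D fx fy fa fc) (st D fx fy fa fc) 0 F7) :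
    Run sym (labIn D βB βP) (labOut D βB βP full) (invCost D nB nF)
      (fun x => F7 (F6 (F5 (F4 (F3 (F2 (F1 (F0 x)))))))) := by
  have z : ∀ A : Matrix ι ι k, Dec sym 0 (A - A) := fun A => Dec.of_eq rfl
  -- labels
  set xI : T → Matrix ι ι k := fun t => βB (D.p t) + βP (D.p t) with hxI
  set yI : T → Matrix ι ι k := fun t => βB (D.p t) with hyI
  set D0 : Matrix ι ι k := βB D.eps with hD0
  set D1 : Matrix ι ι k := βB D.eps + βP D.eps with hD1
  set xM : T → Matrix ι ι k := fun t => βB D.eps + βP (D.p t) with hxM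
  set yO : T → Matrix ι ι k := fun t => βB D.eps + βP (D.eps - D.p t) with hyO
  have r0 := relab D (R := R) (fx := xI) (fy := yI) (fx' := xI) (fy' := yI)
    (fa := fun _ => 0) (fa' := fun q => yI q.1.2) (fc := fun _ => 0) (fc' := fun _ => 0)
    0 0 nB 0 (fun _ => z _) (fun _ => z _)
    (fun q => (hB _ _ (D.dec_p q.1.2)).congr (by ring) (by simp [hyI])) (fun _ => z _)
  have g0 := h0 xI yI (fun q => yI q.1.2) (fun _ => 0) (fun _ => rfl)
  have r1 := relab D (R := R) (fx := xI) (fy := yI) (fx' := xI) (fy' := fun _ => D0)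
    (fa := fun q => yI q.1.2) (fa' := fun q => yI q.1.2) (fc := fun _ => 0) (fc' := fun _ => D0)
    0 (nB * (g + 1)) 0 (nB * (g + 2)) (fun _ => z _)
    (fun t => (hB _ _ (D.dec_one t)).congr rfl (by simp [hyI, hD0])) (fun _ => z _)
    (fun _ => (hB _ _ D.dec_eps).congr rfl (by simp [hD0]))
  have g1 := h1 xI (fun _ => D0) (fun q => yI q.1.2) (fun _ => D0) (fun _ _ => rfl)
  have r2 := relab D (R := R) (fx := xI) (fy := fun _ => D0) (fx' := xM) (fy' := fun _ => D0)
    (fa := fun q => yI q.1.2) (fa' := fun q => xM q.1.1) (fc := fun _ => D0) (fc' := fun _ => D0)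
    (nB * (g + 1)) 0 (nB * (g + 1) + 1) 0
    (fun t => (hB _ _ (D.dec_one t)).congr rfl (by simp [hxI, hxM])) (fun _ => z _)
    (fun q => ((hB _ _ (D.dec_one q.1.2)).add (hP _ _ (D.dec_p q.1.1))).congr rfl
      (by simp only [hyI, hxM, map_sub]; abel))
    (fun _ => z _)
  have g2 := h2 xM (fun _ => D0) (fun q => xM q.1.1) (fun _ => D0) (fun _ => rfl)
  have r3 := relab D (R := R) (fx := xM) (fy := fun _ => D0) (fx' := fun _ => D1)
    (fy' := fun _ => D0)
    (fa := fun q => xM q.1.1) (fa' := fun q => xM q.1.1) (fc := fun _ => D0) (fc' := fun _ => D1)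
    (g + 1) 0 0 (g + 2)
    (fun t => (hP _ _ (D.dec_one t)).congr rfl (by simp [hD1, hxM])) (fun _ => z _)
    (fun _ => z _) (fun _ => (hP _ _ D.dec_eps).congr rfl (by simp [hD1, hD0]))
  have g3 := h3 (fun _ => D1) (fun _ => D0) (fun q => xM q.1.1) (fun _ => D1) (fun _ _ => rfl)
  have r4 := relab D (R := R) (fx := fun _ => D1) (fy := fun _ => D0) (fx' := fun _ => D1)
    (fy' := fun _ => D0)
    (fa := fun q => xM q.1.1) (fa' := fun q => xM q.1.1) (fc := fun _ => D1) (fc' := fun _ => D0)
    0 0 0 (g + 2) (fun _ => z _) (fun _ => z _) (fun _ => z _)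
    (fun _ => ((hP _ _ D.dec_eps).neg D.two_eq).congr rfl (by simp [hD1, hD0]))
  have g4 := h4 (fun _ => D1) (fun _ => D0) (fun q => xM q.1.1) (fun _ => D0) (fun _ _ => rfl)
  have r5 := relab D (R := R) (fx := fun _ => D1) (fy := fun _ => D0) (fx' := fun _ => D1)
    (fy' := yO)
    (fa := fun q => xM q.1.1) (fa' := fun q => yO q.1.2) (fc := fun _ => D0) (fc' := fun _ => D0)
    0 (g + 1) g 0 (fun _ => z _)
    (fun t => (hP _ _ (D.dec_one t)).congr rfl (by simp [hyO, hD0]))
    (fun q => (hP _ _ (D.dec_two q.1.1 q.1.2 q.2)).congr rfl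
      (by simp only [hyO, hxM, map_sub]; abel))
    (fun _ => z _)
  have g5 := h5 (fun _ => D1) yO (fun q => yO q.1.2) (fun _ => D0) (fun _ => rfl)
  have r6 := relab D (R := R) (fx := fun _ => D1) (fy := yO) (fx' := fun _ => D1) (fy' := yO)
    (fa := fun q => yO q.1.2) (fa' := fun q => yO q.1.2) (fc := fun _ => D0) (fc' := fun _ => D1)
    0 0 0 (g + 2) (fun _ => z _) (fun _ => z _) (fun _ => z _)
    (fun _ => (hP _ _ D.dec_eps).congr rfl (by simp [hD1, hD0]))
  have g6 := h6 (fun _ => D1) yO (fun q => yO q.1.2) (fun _ => D1) (fun _ _ => rfl)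
  have r7 := relab D (R := R) (fx := fun _ => D1) (fy := yO) (fx' := fun _ => D1) (fy' := yO)
    (fa := fun q => yO q.1.2) (fa' := fun _ => D1) (fc := fun _ => D1) (fc' := fun _ => D1)
    0 0 1 0 (fun _ => z _) (fun _ => z _)
    (fun q => (hP _ _ (D.dec_p q.1.2)).congr rfl (by simp only [hyO, hD1, map_sub]; abel))
    (fun _ => z _)
  have g7 := h7 (fun _ => D1) yO (fun _ => D1) (fun _ => D1) (fun _ => rfl)
  have r8 := relab D (R := R) (fx := fun _ => D1) (fy := yO) (fx' := fun _ => D1) (fy' := yO)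
    (fa := fun _ => D1) (fa' := fun _ => full) (fc := fun _ => D1) (fc' := fun _ => full)
    0 0 nF nF (fun _ => z _) (fun _ => z _) (fun _ => hF) (fun _ => hF)
  have all := (((((((((((((((r0.trans g0).trans r1).trans g1).trans r2).trans g2).trans r3).trans
    g3).trans r4).trans g4).trans r5).trans g5).trans r6).trans g6).trans r7).trans g7).trans r8
  exact all.congr (by unfold invCost; ring) fun _ => rfl

/-- forward invocation: `y += x` -/
theorem invoc_fwd {nB nF : ℕ}
    (hB : ∀ r U, Dec sym r U → Dec sym (nB * r) (βB U))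
    (hP : ∀ r U, Dec sym r U → Dec sym r (βP U))
    (hF : Dec sym nF (full - (βB D.eps + βP D.eps))) :
    Run sym (labIn D βB βP) (labOut D βB βP full) (invCost D nB nF)
      (fun x : W0 D → R => st D (fun t => x (wX D t)) (fun t => x (wY D t) + x (wX D t))
        (fun q => x (wA D q)) (fun i => x (wC D i))) :=
  (schedule D βB βP full hB hP hF
    (fun _ _ _ _ h => run_YA D (-1) h) (fun _ _ _ _ h => run_YC D (-1) h)
    (fun _ _ _ _ h => run_AX D 1 fun q => (h q).symm)
    (fun _ _ _ _ h => run_CX D 1 fun i t => (h t i).symm)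
    (fun _ _ _ _ h => run_YC D 1 h) (fun _ _ _ _ h => run_YA D 1 h)
    (fun _ _ _ _ h => run_CX D (-1) fun i t => (h t i).symm)
    (fun _ _ _ _ h => run_AX D (-1) fun q => (h q).symm)).congr rfl (fwd_eq D)

/-- reverse invocation: `x -= y` -/
theorem invoc_rev {nB nF : ℕ}
    (hB : ∀ r U, Dec sym r U → Dec sym (nB * r) (βB U))
    (hP : ∀ r U, Dec sym r U → Dec sym r (βP U))
    (hF : Dec sym nF (full - (βB D.eps + βP D.eps))) :
    Run sym (labIn D βB βP) (labOut D βB βP full) (invCost D nB nF)
      (fun x : W0 D → R => st D (fun t => x (wX D t) - x (wY D t)) (fun t => x (wY D t))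
        (fun q => x (wA D q)) (fun i => x (wC D i))) :=
  (schedule D βB βP full hB hP hF
    (fun _ _ _ _ h => run_AY D 1 fun q => (h q).symm)
    (fun _ _ _ _ h => run_CY D 1 fun i t => (h t i).symm)
    (fun _ _ _ _ h => run_XA D (-1) h) (fun _ _ _ _ h => run_XC D (-1) h)
    (fun _ _ _ _ h => run_CY D (-1) fun i t => (h t i).symm)
    (fun _ _ _ _ h => run_AY D (-1) fun q => (h q).symm)
    (fun _ _ _ _ h => run_XC D 1 h) (fun _ _ _ _ h => run_XA D 1 h)).congr rfl (rev_eq D)

end Crest.Agent.X326.Net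
end

-- ▼ part X326/Net/Main
section

/-!
Row 326, M1: the three stages and the main theorem `exists_network : MainStatement`.
-/

set_option autoImplicit false
set_option synthInstance.maxSize 2048

namespace Crest.Agent.X326.Net

open Matrix

variable {R k T C η ι : Type} [CommRing R] [CommRing k] [Fintype C] [DecidableEq T]
  {g : ℕ} {sym : Prop} (D : NetData R k T C η g sym)

/-- scratch wires of one stage -/
abbrev Scr : Type := (T × T) × (Nbr D ⊕ C)

/-- all wires -/
abbrev WW : Type := (T × T × T) ⊕ (T × T × T) ⊕ (Scr D ⊕ Scr D ⊕ Scr D)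

/-- a function on all wires from its five parts -/
def gst {α : Type} (x y : T × T × T → α) (s1 s2 s3 : Scr D → α) : WW D → α :=
  Sum.elim x (Sum.elim y (Sum.elim s1 (Sum.elim s2 s3)))

/-- X wire -/
abbrev gX (a : T × T × T) : WW D := Sum.inl a
/-- Y wire -/
abbrev gY (a : T × T × T) : WW D := Sum.inr (Sum.inl a)
/-- scratch of stage 1 -/
abbrev g1 (s : Scr D) : WW D := Sum.inr (Sum.inr (Sum.inl s))
/-- scratch of stage 2 -/
abbrev g2 (s : Scr D) : WW D := Sum.inr (Sum.inr (Sum.inr (Sum.inl s)))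
/-- scratch of stage 3 -/
abbrev g3 (s : Scr D) : WW D := Sum.inr (Sum.inr (Sum.inr (Sum.inr s)))

section
variable {α : Type} (x y : T × T × T → α) (s1 s2 s3 : Scr D → α)
@[simp] theorem gst_X (a : T × T × T) : gst D x y s1 s2 s3 (gX D a) = x a := rfl
@[simp] theorem gst_Y (a : T × T × T) : gst D x y s1 s2 s3 (gY D a) = y a := rfl
@[simp] theorem gst_1 (s : Scr D) : gst D x y s1 s2 s3 (g1 D s) = s1 s := rfl
@[simp] theorem gst_2 (s : Scr D) : gst D x y s1 s2 s3 (g2 D s) = s2 s := rfl
@[simp] theorem gst_3 (s : Scr D) : gst D x y s1 s2 s3 (g3 D s) = s3 s := rfl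
end

/-- wires of the invocation `b` of stage 1 -/
def f1 (b : T × T) : W0 D → WW D :=
  Sum.elim (fun t => gX D (t, b.1, b.2))
    (Sum.elim (fun t => gY D (t, b.1, b.2)) fun s => g1 D (b, s))

/-- wires of the invocation `b` of stage 2 -/
def f2 (b : T × T) : W0 D → WW D :=
  Sum.elim (fun t => gX D (b.1, t, b.2))
    (Sum.elim (fun t => gY D (b.1, t, b.2)) fun s => g2 D (b, s))

/-- wires of the invocation `b` of stage 3 -/
def f3 (b : T × T) : W0 D → WW D :=
  Sum.elim (fun t => gX D (b.1, b.2, t))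
    (Sum.elim (fun t => gY D (b.1, b.2, t)) fun s => g3 D (b, s))

theorem f1_inj (i : T × T) (a : W0 D) (j : T × T) (b : W0 D) (h : f1 D i a = f1 D j b) :
    i = j ∧ a = b := by
  obtain ⟨i1, i2⟩ := i
  obtain ⟨j1, j2⟩ := j
  rcases a with a | a | a <;> rcases b with b | b | b <;> simp_all [f1]

theorem f2_inj (i : T × T) (a : W0 D) (j : T × T) (b : W0 D) (h : f2 D i a = f2 D j b) :
    i = j ∧ a = b := by
  obtain ⟨i1, i2⟩ := i
  obtain ⟨j1, j2⟩ := j
  rcases a with a | a | a <;> rcases b with b | b | b <;> simp_all [f2]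

theorem f3_inj (i : T × T) (a : W0 D) (j : T × T) (b : W0 D) (h : f3 D i a = f3 D j b) :
    i = j ∧ a = b := by
  obtain ⟨i1, i2⟩ := i
  obtain ⟨j1, j2⟩ := j
  rcases a with a | a | a <;> rcases b with b | b | b <;> simp_all [f3]

variable (e : ι → η × η × η)

/-- the full label -/
abbrev fullL : Matrix ι ι k := K3 e D.eps D.eps D.eps

/-- the line label of `a` -/
abbrev lineL (a : T × T × T) : Matrix ι ι k := K3 e (D.p a.1) (D.p a.2.1) (D.p a.2.2)

/-- input labels -/
def LI : WW D → Matrix ι ι k :=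
  gst D (fun a => -lineL D e a) (fun _ => 0) (fun _ => 0) (fun _ => 0) (fun _ => 0)

/-- labels before stage 1 -/
def L0 : WW D → Matrix ι ι k :=
  gst D (fun a => lineL D e a) (fun _ => 0) (fun _ => 0) (fun _ => 0) (fun _ => 0)

/-- labels after stage 1 -/
def L1 : WW D → Matrix ι ι k :=
  gst D (fun a => K3 e D.eps (D.p a.2.1) (D.p a.2.2))
    (fun a => K3 e (D.eps - D.p a.1) (D.p a.2.1) (D.p a.2.2))
    (fun _ => fullL D e) (fun _ => 0) (fun _ => 0)

/-- labels after stage 2 -/
def L2 : WW D → Matrix ι ι k :=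
  gst D (fun a => K3 e D.eps D.eps (D.p a.2.2))
    (fun a => K3 e (D.eps - D.p a.1) D.eps (D.p a.2.2) +
      K3 e (D.p a.1) (D.eps - D.p a.2.1) (D.p a.2.2))
    (fun _ => fullL D e) (fun _ => fullL D e) (fun _ => 0)

/-- labels after stage 3 -/
def L3 : WW D → Matrix ι ι k :=
  gst D (fun _ => fullL D e) (fun a => fullL D e - lineL D e a)
    (fun _ => fullL D e) (fun _ => fullL D e) (fun _ => fullL D e)

/-- `y += x` on the whole banks -/
def addXY (x : WW D → R) : WW D → R :=
  gst D (fun a => x (gX D a)) (fun a => x (gY D a) + x (gX D a)) (fun s => x (g1 D s))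
    (fun s => x (g2 D s)) (fun s => x (g3 D s))

/-- `x -= y` on the whole banks -/
def subYX (x : WW D → R) : WW D → R :=
  gst D (fun a => x (gX D a) - x (gY D a)) (fun a => x (gY D a)) (fun s => x (g1 D s))
    (fun s => x (g2 D s)) (fun s => x (g3 D s))

/-- `x := -x` on the X bank -/
def negX (x : WW D → R) : WW D → R :=
  gst D (fun a => -x (gX D a)) (fun a => x (gY D a)) (fun s => x (g1 D s))
    (fun s => x (g2 D s)) (fun s => x (g3 D s))

variable [Fintype T] [DecidableEq C]

theorem stage0 (c0 : ℕ) (hc0 : ∀ U : Matrix ι ι k, Dec sym 1 U → Dec sym c0 (U + U)) :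
    Run (R := R) sym (LI D e) (L0 D e) (c0 * Fintype.card T ^ 3) (fun x => x) := by
  refine (Run.relabel
    (gst D (fun _ => c0) (fun _ => 0) (fun _ => 0) (fun _ => 0) (fun _ => 0)) ?_).congr ?_
    fun _ => rfl
  · rintro (a | a | s | s | s)
    · refine (hc0 (lineL D e a) ?_).congr rfl (by simp [LI, L0])
      exact (D.dec_p _).K3 e (D.dec_p _) (D.dec_p _)
    all_goals exact Dec.of_eq rfl
  · simp only [Fintype.sum_sum_type, gst, Sum.elim_inl, Sum.elim_inr, Finset.sum_const,
      Finset.card_univ, smul_eq_mul, Fintype.card_prod]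
    ring

theorem stage1 : Run sym (L0 D e) (L1 D e)
    (Fintype.card T ^ 2 * invCost D 0 ((g + 2) * (g + 1) * (g + 2) + (g + 2) * 1 * (g + 1)))
    (addXY D) := by
  refine (Run.par (f := f1 D) (f1_inj D)
    (fun b => invoc_fwd D 0 (K3l e (D.p b.1) (D.p b.2)) (fullL D e) (nB := 0)
      (nF := (g + 2) * (g + 1) * (g + 2) + (g + 2) * 1 * (g + 1)) ?_ ?_ ?_)
    ?_ ?_ ?_ ?_ ?_).congr (by simp [sq]) fun _ => rfl
  · intro r U _
    simpa using Dec.zero
  · intro r U hU
    exact (hU.K3 e (D.dec_p _) (D.dec_p _)).congr (by ring) rfl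
  · refine ((D.dec_eps.K3 e (D.dec_one b.1) D.dec_eps).add
      (D.dec_eps.K3 e (D.dec_p b.1) (D.dec_one b.2))).congr rfl ?_
    ext i j
    simp [K3]
    ring
  · rintro b (t | t | q | i) <;> simp [L0, f1, labIn, st]
  · rintro b (t | t | q | i) <;> simp [L1, f1, labOut, st]
  · rintro (a | a | s | s | s) hw
    · exact absurd rfl (hw a.2 (wX D a.1))
    · exact absurd rfl (hw a.2 (wY D a.1))
    · exact absurd rfl (hw s.1 (Sum.inr (Sum.inr s.2)))
    · rfl
    · rfl
  · rintro x b (t | t | q | i) <;> rfl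
  · rintro x (a | a | s | s | s) hw
    · rfl
    · exact absurd rfl (hw a.2 (wY D a.1))
    all_goals rfl

theorem stage2 : Run sym (L1 D e) (L2 D e)
    (Fintype.card T ^ 2 * invCost D (g + 1) ((g + 2) * (g + 2) * (g + 1))) (subYX D) := by
  refine (Run.par (f := f2 D) (f2_inj D)
    (fun b => invoc_rev D (K3m e (D.eps - D.p b.1) (D.p b.2)) (K3m e (D.p b.1) (D.p b.2))
      (fullL D e) (nB := g + 1) (nF := (g + 2) * (g + 2) * (g + 1)) ?_ ?_ ?_)
    ?_ ?_ ?_ ?_ ?_).congr (by simp [sq]) fun _ => rfl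
  · intro r U hU
    exact ((D.dec_one _).K3 e hU (D.dec_p _)).congr (by ring) rfl
  · intro r U hU
    exact ((D.dec_p _).K3 e hU (D.dec_p _)).congr (by ring) rfl
  · refine (D.dec_eps.K3 e D.dec_eps (D.dec_one b.2)).congr rfl ?_
    ext i j
    simp [K3]
    ring
  · rintro b (t | t | q | i)
    · ext i j
      simp [L1, f2, labIn, st, K3]
      ring
    all_goals simp [L1, f2, labIn, st]
  · rintro b (t | t | q | i)
    · ext i j
      simp [L2, f2, labOut, st, K3]
      ring
    all_goals simp [L2, f2, labOut, st]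
  · rintro (a | a | s | s | s) hw
    · exact absurd rfl (hw (a.1, a.2.2) (wX D a.2.1))
    · exact absurd rfl (hw (a.1, a.2.2) (wY D a.2.1))
    · rfl
    · exact absurd rfl (hw s.1 (Sum.inr (Sum.inr s.2)))
    · rfl
  · rintro x b (t | t | q | i) <;> rfl
  · rintro x (a | a | s | s | s) hw
    · exact absurd rfl (hw (a.1, a.2.2) (wX D a.2.1))
    all_goals rfl

theorem stage3 : Run sym (L2 D e) (L3 D e)
    (Fintype.card T ^ 2 * invCost D ((g + 1) * (g + 2) + (g + 1)) 0) (addXY D) := by
  refine (Run.par (f := f3 D) (f3_inj D)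
    (fun b => invoc_fwd D
      (K3r e (D.eps - D.p b.1) D.eps + K3r e (D.p b.1) (D.eps - D.p b.2))
      (K3r e (D.p b.1) (D.p b.2))
      (fullL D e) (nB := (g + 1) * (g + 2) + (g + 1)) (nF := 0) ?_ ?_ ?_)
    ?_ ?_ ?_ ?_ ?_).congr (by simp [sq]) fun _ => rfl
  · intro r U hU
    exact (((D.dec_one _).K3 e D.dec_eps hU).add
      ((D.dec_p _).K3 e (D.dec_one _) hU)).congr (by ring) rfl
  · intro r U hU
    exact ((D.dec_p _).K3 e (D.dec_p _) hU).congr (by ring) rfl
  · refine Dec.of_eq ?_
    ext i j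
    simp [K3]
    ring
  · rintro b (t | t | q | i)
    · ext i j
      simp [L2, f3, labIn, st, K3]
      ring
    all_goals simp [L2, f3, labIn, st]
  · rintro b (t | t | q | i)
    · ext i j
      simp [L3, f3, labOut, st, K3]
      ring
    · ext i j
      simp [L3, f3, labOut, st, K3]
      ring
    all_goals simp [L3, f3, labOut, st]
  · rintro (a | a | s | s | s) hw
    · exact absurd rfl (hw (a.1, a.2.1) (wX D a.2.2))
    · exact absurd rfl (hw (a.1, a.2.1) (wY D a.2.2))
    · rfl
    · rfl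
    · exact absurd rfl (hw s.1 (Sum.inr (Sum.inr s.2)))
  · rintro x b (t | t | q | i) <;> rfl
  · rintro x (a | a | s | s | s) hw
    · rfl
    · exact absurd rfl (hw (a.1, a.2.1) (wY D a.2.2))
    all_goals rfl

theorem stage4 : Run sym (L3 D e) (L3 D e) 0 (negX D) := by
  refine (Run.par (W₀ := Unit) (f := fun a _ => gX D a) (l₀ := fun _ _ => fullL D e)
    (l₀' := fun _ _ => fullL D e) (n := fun _ => 0) (F₀ := fun _ x _ => -x ())
    (fun i _ j _ h => ⟨by simpa using h, rfl⟩) (fun a => ?_) (fun _ _ => rfl) (fun _ _ => rfl)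
    (fun _ _ => rfl) (fun _ _ _ => rfl) ?_).congr (by simp) fun _ => rfl
  · refine (Run.add (w := ()) (w' := ()) rfl (-2)).congr rfl fun x => ?_
    funext u
    simp
    ring
  · rintro x (a | a | s | s | s) hw
    · exact absurd rfl (hw a ())
    all_goals rfl

/-- exchange of the two banks -/
def swapW : WW D ≃ WW D where
  toFun := gst D (gY D) (gX D) (g1 D) (g2 D) (g3 D)
  invFun := gst D (gY D) (gX D) (g1 D) (g2 D) (g3 D)
  left_inv := by rintro (a | a | s | s | s) <;> rfl
  right_inv := by rintro (a | a | s | s | s) <;> rfl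

omit [DecidableEq C] in
theorem card_WW : Fintype.card (WW D) = 2 * Fintype.card T ^ 3 +
    3 * Fintype.card T ^ 2 * (Fintype.card (Nbr D) + Fintype.card C) := by
  simp only [Fintype.card_sum, Fintype.card_prod]
  ring

/-- the whole network on the structured wire type -/
theorem whole (c0 : ℕ) (hc0 : ∀ U : Matrix ι ι k, Dec sym 1 U → Dec sym c0 (U + U)) :
    ∃ n : ℕ, Run sym (LI D e) (L3 D e) n (fun x : WW D → R => fun w => x (swapW D w)) ∧
      n + 2 * Fintype.card T ^ 3 = Fintype.card (WW D) * (g + 2) ^ 3 +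
        6 * Fintype.card T ^ 2 * Fintype.card C * (g + 2) + c0 * Fintype.card T ^ 3 := by
  refine ⟨_, (((((stage0 D e c0 hc0).trans (stage1 D e)).trans (stage2 D e)).trans
    (stage3 D e)).trans (stage4 D e)).congr rfl fun x => ?_, ?_⟩
  · funext w
    rcases w with a | a | s | s | s
    · simp [negX, addXY, subYX, swapW]
    · simp [negX, addXY, subYX, swapW]
    all_goals rfl
  · rw [card_WW]
    unfold invCost
    ring

/-- **M1.** The generic network. -/
theorem exists_network : MainStatement := by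
  intro R k T C η ι _ _ _ _ _ g sym D e c0 hc0
  classical
  obtain ⟨n, hrun, hn⟩ := whole D e c0 hc0
  let φ : WW D ≃ Fin (Fintype.card (WW D)) := Fintype.equivFin _
  have hrun' : Run sym (fun w => LI D e (φ.symm w)) (fun w => L3 D e (φ.symm w)) n
      (fun x : Fin (Fintype.card (WW D)) → R => fun w => x (φ (swapW D (φ.symm w)))) := by
    refine hrun.embed (f := φ) φ.injective (fun a => by simp) (fun a => by simp) ?_
      (fun x a => by simp) ?_
    · intro w hw
      exact absurd (φ.apply_symm_apply w) (hw _)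
    · intro x w hw
      exact absurd (φ.apply_symm_apply w) (hw _)
  obtain ⟨P, hv, hP, hs, hl⟩ := hrun'
  have hin : sym → ∀ w, (LI D e (φ.symm w)).IsSymm := by
    intro hsym w
    generalize φ.symm w = z
    rcases z with a | a | s | s | s
    · exact (((D.dec_p _).K3 e (D.dec_p _) (D.dec_p _)).isSymm hsym).neg
    all_goals exact Matrix.isSymm_zero
  have hinv : ∀ z, swapW D (swapW D z) = z := (swapW D).left_inv
  refine ⟨Fintype.card (WW D), P, (φ.symm.trans (swapW D)).trans φ, _, _,
    ⟨hv, ?_, ?_, ?_, hin⟩, ?_, ?_, by rw [hP]; exact hn⟩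
  · intro w
    simp only [Equiv.trans_apply, Equiv.symm_apply_apply]
    generalize φ.symm w = z
    rcases z with a | a | s | s | s
    · simp only [swapW, Equiv.coe_fn_mk, gst_X, L3, gst_Y, LI]
      abel
    all_goals simp [swapW, L3, LI]
  · intro M _ _ x w
    rw [logi_eq_sum]
    simp [hl, hinv, Pi.single_apply]
  · intro hsym w e' u v hm
    exact ⟨hs hsym w e' u v hm, hv.isSymm (hin hsym) (hs hsym) w e' u v hm⟩
  · rw [card_WW]; omega
  · rw [card_WW]
    have : Fintype.card (Nbr D) ≤ Fintype.card T ^ 2 := by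
      have := Fintype.card_subtype_le (fun q : T × T => D.nb q.1 q.2 = true)
      simpa [sq] using this
    gcongr

end Crest.Agent.X326.Net
end

-- ▼ part X326/Net/BaseA
section

/-!
Row 326, part M1: the base data of the bit network (scalars `ZMod 2`, integer labels).
The ground set is any finite type `η` with `g + 2` elements, the triples are its `3`-subsets.
-/

set_option autoImplicit false
set_option linter.unusedSectionVars false

namespace Crest.Agent.X326.Net

open Matrix

/-- a sum of rank-one atoms over a finite set -/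
theorem dec_finset_sum {k ι α : Type} [CommRing k] {sym : Prop} (s : Finset α)
    (u v : α → ι → k) (h : sym → ∀ a ∈ s, u a = v a) :
    Dec sym s.card (∑ a ∈ s, vecMulVec (u a) (v a)) := by
  refine ⟨s.toList.map fun a => (u a, v a), by simp, ?_, ?_⟩
  · intro hs q hq
    obtain ⟨a, ha, rfl⟩ := List.mem_map.1 hq
    exact h hs a (Finset.mem_toList.1 ha)
  · rw [List.map_map, ← Finset.sum_map_toList]
    rfl

/-- the `3`-subsets of the ground set -/
abbrev Tri (η : Type) : Type := {S : Finset η // S.card = 3}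

/-- indicator vector of a finite set -/
def ind (k : Type) [CommRing k] {η : Type} [DecidableEq η] (S : Finset η) : η → k :=
  fun i => if i ∈ S then 1 else 0

section

variable {k η : Type} [CommRing k] [Fintype η] [DecidableEq η]

theorem ind_dot_ind (S T : Finset η) : ind k S ⬝ᵥ ind k T = ((S ∩ T).card : k) := by
  unfold dotProduct ind
  have : ∀ i, (if i ∈ S then (1 : k) else 0) * (if i ∈ T then 1 else 0) =
      if i ∈ S ∩ T then 1 else 0 := by
    intro i
    by_cases h1 : i ∈ S <;> by_cases h2 : i ∈ T <;> simp [h1, h2]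
  simp only [this]
  rw [Finset.sum_boole]
  congr 2
  ext i
  simp

theorem tri_inter_le (S T : Tri η) : (S.1 ∩ T.1).card ≤ 3 :=
  (Finset.card_le_card Finset.inter_subset_left).trans S.2.le

theorem tri_inter_eq_three {S T : Tri η} : (S.1 ∩ T.1).card = 3 ↔ S = T := by
  constructor
  · intro h
    have h1 : S.1 ∩ T.1 = S.1 :=
      Finset.eq_of_subset_of_card_le Finset.inter_subset_left (by rw [h, S.2])
    have h2 : S.1 ∩ T.1 = T.1 :=
      Finset.eq_of_subset_of_card_le Finset.inter_subset_right (by rw [h, T.2])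
    exact Subtype.ext (h1.symm.trans h2)
  · rintro rfl
    rw [Finset.inter_self, S.2]

/-- a product `M * N` in which the rows of `N` indexed by `Z` vanish -/
theorem dec_mul (M N : Matrix η η k) (Z : Finset η) (hN : ∀ l ∈ Z, ∀ j, N l j = 0) :
    Dec False Zᶜ.card (M * N) := by
  have h := dec_finset_sum (k := k) (sym := False) Zᶜ (fun l i => M i l) (fun l j => N l j)
    (fun h => h.elim)
  have e : M * N = ∑ l ∈ Zᶜ, vecMulVec (fun i => M i l) (fun j => N l j) := by
    ext i j
    rw [Matrix.mul_apply, Matrix.sum_apply, ← Finset.sum_add_sum_compl Z]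
    rw [Finset.sum_eq_zero fun l hl => by rw [hN l hl j, mul_zero], zero_add]
    exact Finset.sum_congr rfl fun l _ => by rw [vecMulVec_apply]
  rw [e]
  exact h

end

/-! ### the bit network -/

section A

variable {η : Type} [Fintype η] [DecidableEq η]

/-- the covector of a triple: `3 t_S - 1` -/
def covA (S : Finset η) : η → ℤ := fun i => 3 * ind ℤ S i - 1

theorem covA_dot (S T : Finset η) : covA S ⬝ᵥ ind ℤ T = 3 * ((S ∩ T).card : ℤ) - T.card := by
  have h1 : covA S = (3 : ℤ) • ind ℤ S - ind ℤ Finset.univ := by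
    ext i
    simp [covA, ind]
  rw [h1, sub_dotProduct, smul_dotProduct, ind_dot_ind, ind_dot_ind, Finset.univ_inter]
  simp

/-- the label of a triple -/
def pA (S : Tri η) : Matrix η η ℤ := vecMulVec (ind ℤ S.1) (covA S.1)

theorem pA_mulVec (S T : Tri η) :
    pA S *ᵥ ind ℤ T.1 = (3 * ((S.1 ∩ T.1).card : ℤ) - 3) • ind ℤ S.1 := by
  unfold pA
  ext i
  rw [vecMulVec_mulVec, covA_dot, T.2]
  simp [mul_comm]

theorem mul_one_sub_of_mulVec (M : Matrix η η ℤ) (t w : η → ℤ) (h : M *ᵥ t = 0) :
    M * vecMulVec t w = 0 := by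
  rw [mul_vecMulVec, h, zero_vecMulVec]

theorem decA_one {g : ℕ} (hη : Fintype.card η = g + 2) (S : Tri η) :
    Dec False (g + 1) ((6 : ℤ) • (1 : Matrix η η ℤ) - pA S) := by
  obtain ⟨a, ha⟩ : S.1.Nonempty := Finset.card_pos.1 (by rw [S.2]; norm_num)
  set M : Matrix η η ℤ := (6 : ℤ) • (1 : Matrix η η ℤ) - pA S with hM
  have hk : M *ᵥ ind ℤ S.1 = 0 := by
    rw [hM, sub_mulVec, pA_mulVec, Finset.inter_self, S.2, smul_mulVec, one_mulVec]
    norm_num
  have e : M = M * (1 - vecMulVec (ind ℤ S.1) (Pi.single a 1)) := by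
    rw [Matrix.mul_sub, Matrix.mul_one, mul_one_sub_of_mulVec _ _ _ hk, sub_zero]
  have h := dec_mul M (1 - vecMulVec (ind ℤ S.1) (Pi.single a 1)) {a} (by
    intro l hl j
    rw [Finset.mem_singleton] at hl
    subst hl
    simp [vecMulVec_apply, ind, ha, Matrix.one_apply, Pi.single_apply, eq_comm])
  rw [← e, Finset.card_compl, hη, Finset.card_singleton] at h
  exact h

theorem decA_two {g : ℕ} (hη : Fintype.card η = g + 2) (S T : Tri η)
    (hST : (S.1 ∩ T.1).card = 1) :
    Dec False g ((6 : ℤ) • (1 : Matrix η η ℤ) - pA S - pA T) := by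
  obtain ⟨a, haS, haT⟩ : ∃ a ∈ S.1, a ∉ T.1 := by
    by_contra hc
    push Not at hc
    rw [Finset.inter_eq_left.2 hc, S.2] at hST
    omega
  obtain ⟨b, hbT, hbS⟩ : ∃ b ∈ T.1, b ∉ S.1 := by
    by_contra hc
    push Not at hc
    rw [Finset.inter_eq_right.2 hc, T.2] at hST
    omega
  have hab : a ≠ b := fun h => haT (h ▸ hbT)
  set M : Matrix η η ℤ := (6 : ℤ) • (1 : Matrix η η ℤ) - pA S - pA T with hM
  have hkS : M *ᵥ ind ℤ S.1 = 0 := by
    rw [hM, sub_mulVec, sub_mulVec, pA_mulVec, pA_mulVec, Finset.inter_self, S.2,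
      Finset.inter_comm, hST, smul_mulVec, one_mulVec]
    norm_num
  have hkT : M *ᵥ ind ℤ T.1 = 0 := by
    rw [hM, sub_mulVec, sub_mulVec, pA_mulVec, pA_mulVec, Finset.inter_self, T.2, hST,
      smul_mulVec, one_mulVec]
    norm_num
  have e : M = M * (1 - vecMulVec (ind ℤ S.1) (Pi.single a 1) -
      vecMulVec (ind ℤ T.1) (Pi.single b 1)) := by
    rw [Matrix.mul_sub, Matrix.mul_sub, Matrix.mul_one, mul_one_sub_of_mulVec _ _ _ hkS,
      mul_one_sub_of_mulVec _ _ _ hkT, sub_zero, sub_zero]
  have h := dec_mul M (1 - vecMulVec (ind ℤ S.1) (Pi.single a 1) -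
      vecMulVec (ind ℤ T.1) (Pi.single b 1)) {a, b} (by
    intro l hl j
    rw [Finset.mem_insert, Finset.mem_singleton] at hl
    rcases hl with rfl | rfl
    · simp [vecMulVec_apply, ind, haS, haT, Matrix.one_apply, Pi.single_apply, eq_comm]
    · simp [vecMulVec_apply, ind, hbS, hbT, Matrix.one_apply, Pi.single_apply, eq_comm])
  rw [← e, Finset.card_compl, hη, Finset.card_pair hab] at h
  exact h

theorem decA_eps {g : ℕ} (hη : Fintype.card η = g + 2) :
    Dec False (g + 2) ((6 : ℤ) • (1 : Matrix η η ℤ)) := by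
  have h := dec_mul ((6 : ℤ) • (1 : Matrix η η ℤ)) 1 ∅ (by simp)
  rw [Matrix.mul_one, Finset.compl_empty, Finset.card_univ, hη] at h
  exact h

/-- the base data of the bit network -/
def dataA {g : ℕ} (hη : Fintype.card η = g + 2) : NetData (ZMod 2) ℤ (Tri η) η η g False where
  nb S T := decide ((S.1 ∩ T.1).card = 1)
  eps := (6 : ℤ) • 1
  p := pA
  G i T := ind (ZMod 2) T.1 i
  Rm S i := ind (ZMod 2) S.1 i
  J _ _ := 1
  nb_symm S T := by rw [Finset.inter_comm]
  scalar S T := by
    have h := ind_dot_ind (k := ZMod 2) S.1 T.1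
    unfold dotProduct at h
    rw [h]
    have h3 := tri_inter_le S T
    have h4 := tri_inter_eq_three (S := S) (T := T)
    simp only [decide_eq_true_eq, ← h4]
    generalize (S.1 ∩ T.1).card = n at h3 ⊢
    interval_cases n <;> simp <;> decide
  dec_eps := decA_eps hη
  dec_p S := ⟨[(ind ℤ S.1, covA S.1)], rfl, fun h => h.elim, by simp [pA]⟩
  dec_one := decA_one hη
  dec_two S T h := decA_two hη S T (by simpa using h)
  two_eq h := h.elim


end A

end Crest.Agent.X326.Net
end

-- ▼ part X326/Net/BaseB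
section

/-!
Row 326, part M1: the base data of the butterfly network (scalars in any commutative ring with a
half, labels over `ZMod 2`, symmetric atoms).
-/

set_option autoImplicit false
set_option linter.unusedSectionVars false

namespace Crest.Agent.X326.Net

open Matrix

section B

variable {η : Type} [Fintype η] [DecidableEq η]

/-- removing some rows of an orthogonal matrix from the identity -/
theorem dec_orth {k : Type} [CommRing k] (O : Matrix η η k) (hO : Oᵀ * O = 1) (Z : Finset η) :
    Dec True Zᶜ.card (1 - ∑ x ∈ Z, vecMulVec (O x) (O x)) := by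
  have h := dec_finset_sum (k := k) (sym := True) Zᶜ (fun x => O x) (fun x => O x)
    (fun _ _ _ => rfl)
  have e : (1 : Matrix η η k) = ∑ x, vecMulVec (O x) (O x) := by
    rw [← hO]
    ext i j
    rw [Matrix.mul_apply, Matrix.sum_apply]
    exact Finset.sum_congr rfl fun x _ => by rw [vecMulVec_apply, transpose_apply]
  rw [e, ← Finset.sum_add_sum_compl Z, add_sub_cancel_left]
  exact h

/-- the orthogonal matrix attached to two disjoint sets of even size -/
def orthB (U U' : Finset η) : Matrix η η (ZMod 2) :=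
  1 + vecMulVec (ind (ZMod 2) U) (ind (ZMod 2) U) + vecMulVec (ind (ZMod 2) U') (ind (ZMod 2) U')

theorem orthB_orth {U U' : Finset η} (hU : Even U.card) (hU' : Even U'.card)
    (hd : Disjoint U U') : (orthB U U')ᵀ * orthB U U' = 1 := by
  have h1 : ind (ZMod 2) U ⬝ᵥ ind (ZMod 2) U = 0 := by
    rw [ind_dot_ind, Finset.inter_self]
    exact (ZMod.natCast_eq_zero_iff_even).2 hU
  have h2 : ind (ZMod 2) U' ⬝ᵥ ind (ZMod 2) U' = 0 := by
    rw [ind_dot_ind, Finset.inter_self]
    exact (ZMod.natCast_eq_zero_iff_even).2 hU'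
  have h3 : ind (ZMod 2) U ⬝ᵥ ind (ZMod 2) U' = 0 := by
    rw [ind_dot_ind, Finset.disjoint_iff_inter_eq_empty.1 hd]
    simp
  have h4 : ind (ZMod 2) U' ⬝ᵥ ind (ZMod 2) U = 0 := by rw [dotProduct_comm, h3]
  have ht : (orthB U U')ᵀ = orthB U U' := by
    simp [orthB, transpose_add, transpose_vecMulVec]
  rw [ht]
  unfold orthB
  generalize ind (ZMod 2) U = u at *
  generalize ind (ZMod 2) U' = u' at *
  have two : ∀ A : Matrix η η (ZMod 2), A + A = 0 := fun A => by
    ext i j
    exact CharTwo.add_self_eq_zero _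
  simp only [Matrix.add_mul, Matrix.mul_add, Matrix.one_mul, Matrix.mul_one,
    vecMulVec_mul_vecMulVec, h1, h2, h3, h4, zero_smul, vecMulVec_zero, add_zero]
  have e1 := two (vecMulVec u u)
  have e2 := two (vecMulVec u' u')
  calc _ = 1 + (vecMulVec u u + vecMulVec u u) + (vecMulVec u' u' + vecMulVec u' u') := by abel
    _ = 1 := by rw [e1, e2, add_zero, add_zero]

theorem orthB_row_left {U U' : Finset η} (hd : Disjoint U U') {x : η} (hx : x ∈ U) :
    orthB U U' x = ind (ZMod 2) (U.erase x) := by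
  have hx' : x ∉ U' := Finset.disjoint_left.1 hd hx
  ext i
  by_cases hi : x = i
  · subst hi
    simp [orthB, vecMulVec_apply, ind, hx, hx']
    decide
  · have hi' : i ≠ x := fun h => hi h.symm
    simp [orthB, vecMulVec_apply, ind, hx, hx', hi, hi']

theorem orthB_comm (U U' : Finset η) : orthB U U' = orthB U' U := by
  unfold orthB
  abel

theorem orthB_row_right {U U' : Finset η} (hd : Disjoint U U') {x : η} (hx : x ∈ U') :
    orthB U U' x = ind (ZMod 2) (U'.erase x) := by
  rw [orthB_comm, orthB_row_left hd.symm hx]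

/-- the label of a triple -/
def pB (S : Tri η) : Matrix η η (ZMod 2) := vecMulVec (ind (ZMod 2) S.1) (ind (ZMod 2) S.1)

theorem exists_notMem_of_card_lt (s : Finset η) (h : s.card < Fintype.card η) : ∃ x, x ∉ s := by
  by_contra hc
  push Not at hc
  rw [Finset.eq_univ_iff_forall.2 hc, Finset.card_univ] at h
  exact lt_irrefl _ h

theorem decB_eps {g : ℕ} (hη : Fintype.card η = g + 2) :
    Dec True (g + 2) (1 : Matrix η η (ZMod 2)) := by
  have h := dec_orth (1 : Matrix η η (ZMod 2)) (by simp) ∅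
  rw [Finset.compl_empty, Finset.card_univ, hη, Finset.sum_empty, sub_zero] at h
  exact h

theorem decB_one {g : ℕ} (hη : Fintype.card η = g + 2) (hg : 6 ≤ g) (S : Tri η) :
    Dec True (g + 1) (1 - pB S) := by
  obtain ⟨d, hd⟩ := exists_notMem_of_card_lt S.1 (by rw [S.2]; omega)
  have hc : (insert d S.1).card = 4 := by rw [Finset.card_insert_of_notMem hd, S.2]
  have h := dec_orth (orthB (insert d S.1) ∅)
    (orthB_orth (by rw [hc]; decide) (by simp) (by simp)) {d}
  rw [Finset.card_compl, hη, Finset.card_singleton, Finset.sum_singleton,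
    orthB_row_left (by simp) (Finset.mem_insert_self _ _), Finset.erase_insert hd] at h
  exact h

theorem decB_two {g : ℕ} (hη : Fintype.card η = g + 2) (hg : 6 ≤ g) (S T : Tri η)
    (hST : (S.1 ∩ T.1).card = 0 ∨ (S.1 ∩ T.1).card = 2) :
    Dec True g (1 - pB S - pB T) := by
  have hu := Finset.card_union_add_card_inter S.1 T.1
  rw [S.2, T.2] at hu
  rcases hST with h0 | h2
  · -- disjoint triples
    obtain ⟨d, hd⟩ := exists_notMem_of_card_lt (S.1 ∪ T.1) (by omega)
    obtain ⟨d', hd'⟩ := exists_notMem_of_card_lt (insert d (S.1 ∪ T.1)) (by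
      rw [Finset.card_insert_of_notMem hd]; omega)
    simp only [Finset.mem_union, Finset.mem_insert, not_or] at hd hd'
    have hdd : d ≠ d' := fun h => hd'.1 h.symm
    have hc : (insert d S.1).card = 4 := by rw [Finset.card_insert_of_notMem hd.1, S.2]
    have hc' : (insert d' T.1).card = 4 := by rw [Finset.card_insert_of_notMem hd'.2.2, T.2]
    have hST' : Disjoint S.1 T.1 :=
      Finset.disjoint_iff_inter_eq_empty.2 (Finset.card_eq_zero.1 h0)
    have hdis : Disjoint (insert d S.1) (insert d' T.1) := by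
      rw [Finset.disjoint_insert_left, Finset.disjoint_insert_right]
      refine ⟨?_, hd'.2.1, hST'⟩
      simp [hdd, hd.2]
    have h := dec_orth (orthB (insert d S.1) (insert d' T.1))
      (orthB_orth (by rw [hc]; decide) (by rw [hc']; decide) hdis) {d, d'}
    rw [Finset.card_compl, hη, Finset.card_pair hdd, Finset.sum_pair hdd,
      orthB_row_left hdis (Finset.mem_insert_self _ _), Finset.erase_insert hd.1,
      orthB_row_right hdis (Finset.mem_insert_self _ _), Finset.erase_insert hd'.2.2,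
      ← sub_sub] at h
    exact h
  · -- triples sharing two points
    have hc : (S.1 ∪ T.1).card = 4 := by omega
    obtain ⟨a, haS, haT⟩ : ∃ a ∈ S.1, a ∉ T.1 := by
      by_contra hc
      push Not at hc
      rw [Finset.inter_eq_left.2 hc, S.2] at h2
      omega
    obtain ⟨b, hbT, hbS⟩ : ∃ b ∈ T.1, b ∉ S.1 := by
      by_contra hc
      push Not at hc
      rw [Finset.inter_eq_right.2 hc, T.2] at h2
      omega
    have hab : b ≠ a := fun h => haT (h ▸ hbT)
    have eS : (S.1 ∪ T.1).erase b = S.1 := by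
      symm
      refine Finset.eq_of_subset_of_card_le (fun x hx => ?_) ?_
      · exact Finset.mem_erase.2 ⟨fun h => hbS (h ▸ hx), Finset.mem_union_left _ hx⟩
      · rw [Finset.card_erase_of_mem (Finset.mem_union_right _ hbT), hc, S.2]
    have eT : (S.1 ∪ T.1).erase a = T.1 := by
      symm
      refine Finset.eq_of_subset_of_card_le (fun x hx => ?_) ?_
      · exact Finset.mem_erase.2 ⟨fun h => haT (h ▸ hx), Finset.mem_union_right _ hx⟩
      · rw [Finset.card_erase_of_mem (Finset.mem_union_left _ haS), hc, T.2]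
    have h := dec_orth (orthB (S.1 ∪ T.1) ∅)
      (orthB_orth (by rw [hc]; decide) (by simp) (by simp)) {b, a}
    rw [Finset.card_compl, hη, Finset.card_pair hab, Finset.sum_pair hab,
      orthB_row_left (by simp) (Finset.mem_union_right _ hbT), eS,
      orthB_row_left (by simp) (Finset.mem_union_left _ haS), eT, ← sub_sub] at h
    exact h

/-- the base data of the butterfly network; `hf` is a half of `1` in the scalar ring -/
def dataB {R : Type} [CommRing R] (hf : R) (h2 : 2 * hf = 1) {g : ℕ}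
    (hη : Fintype.card η = g + 2) (hg : 6 ≤ g) :
    NetData R (ZMod 2) (Tri η) (Option η) η g True where
  nb S T := decide ((S.1 ∩ T.1).card = 0 ∨ (S.1 ∩ T.1).card = 2)
  eps := 1
  p := pB
  G i T := i.elim 1 (ind R T.1)
  Rm S i := i.elim (-hf) fun i => hf * ind R S.1 i
  J S T := if (S.1 ∩ T.1).card = 0 then hf else -hf
  nb_symm S T := by rw [Finset.inter_comm]
  scalar S T := by
    have h := ind_dot_ind (k := R) S.1 T.1
    unfold dotProduct at h
    rw [Fintype.sum_option]
    simp only [Option.elim_none, Option.elim_some, mul_assoc]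
    rw [← Finset.mul_sum, h]
    have h3 := tri_inter_le S T
    have h4 := tri_inter_eq_three (S := S) (T := T)
    simp only [decide_eq_true_eq, ← h4]
    generalize (S.1 ∩ T.1).card = n at h3 ⊢
    interval_cases n
    · simp
    · simp
    · simp only [Nat.cast_ofNat]
      norm_num
      ring
    · simp only [Nat.cast_ofNat]
      norm_num
      linear_combination h2
  dec_eps := decB_eps hη
  dec_p S := ⟨[(ind (ZMod 2) S.1, ind (ZMod 2) S.1)], rfl, by simp, by simp [pB]⟩
  dec_one := decB_one hη hg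
  dec_two S T h := decB_two hη hg S T (by simpa using h)
  two_eq _ := by decide


end B

end Crest.Agent.X326.Net
end

-- ▼ part X326/Net/Pad
section

/-!
Row 326, M1: change of scalars and padding with idle wires for `NetSpec`.
-/

set_option autoImplicit false

namespace Crest.Agent.X326.Net

open Matrix

section MapCoef

variable {W R R' R'' k ι : Type}

/-- change of the coefficients of a program -/
def Instr.mapCoef (f : R → R') : Instr W R k ι → Instr W R' k ι
  | .add w w' c => .add w w' (f c)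
  | .atom w e u v => .atom w e u v

theorem Instr.mapCoef_mapCoef (f : R → R') (g : R' → R'') (i : Instr W R k ι) :
    (i.mapCoef f).mapCoef g = i.mapCoef (g ∘ f) := by
  cases i <;> rfl

theorem natoms_mapCoef (f : R → R') (P : List (Instr W R k ι)) :
    natoms (P.map (Instr.mapCoef f)) = natoms P := by
  induction P with
  | nil => rfl
  | cons i P ih => cases i <;> simp [Instr.mapCoef, ih]

theorem atom_mem_mapCoef {f : R → R'} {P : List (Instr W R k ι)} {w : W} {e : Matrix ι ι k}
    {u v : ι → k} :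
    Instr.atom w e u v ∈ P.map (Instr.mapCoef f) ↔ Instr.atom w e u v ∈ P := by
  constructor
  · intro h
    obtain ⟨i, hi, hi'⟩ := List.mem_map.1 h
    cases i with
    | add a b c => cases hi'
    | atom a e' u' v' =>
      simp only [Instr.mapCoef, Instr.atom.injEq] at hi'
      obtain ⟨rfl, rfl, rfl, rfl⟩ := hi'
      exact hi
  · intro h
    exact List.mem_map.2 ⟨_, h, rfl⟩

variable [DecidableEq W]

theorem valid_mapCoef [CommRing k] (f : R → R') {P : List (Instr W R k ι)}
    {l l' : W → Matrix ι ι k} : Valid l (P.map (Instr.mapCoef f)) l' ↔ Valid l P l' := by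
  induction P generalizing l with
  | nil => rfl
  | cons i P ih =>
    cases i with
    | add w w' c => simp only [List.map_cons, Instr.mapCoef, Valid, ih]
    | atom w e u v => simp only [List.map_cons, Instr.mapCoef, Valid, ih]

theorem logi_mapCoef [CommRing R] [CommRing R'] (φ : R →+* R') (P : List (Instr W R k ι))
    {M : Type} [AddCommGroup M] [Module R' M] (x : W → M) :
    logi (P.map (Instr.mapCoef φ)) x = @logi W R k ι _ _ M _ (Module.compHom M φ) P x := by
  induction P generalizing x with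
  | nil => rfl
  | cons i P ih =>
    cases i with
    | add w w' c =>
      simp only [List.map_cons, Instr.mapCoef, logi_cons_add]
      rw [ih]
      rfl
    | atom w e u v =>
      simp only [List.map_cons, Instr.mapCoef, logi_cons_atom]
      rw [ih]

end MapCoef

variable {R R' k ι : Type} [CommRing R] [CommRing R'] [CommRing k] {sym : Prop}
  {full : Matrix ι ι k} {nW : ℕ} {P : List (Instr (Fin nW) R k ι)} {ρ : Fin nW ≃ Fin nW}
  {lin lout : Fin nW → Matrix ι ι k}

/-- change of scalars along a ring homomorphism -/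
theorem NetSpec.mapCoef (h : NetSpec R sym full P ρ lin lout) (φ : R →+* R') :
    NetSpec R' sym full (P.map (Instr.mapCoef φ)) ρ lin lout where
  valid := (valid_mapCoef _).2 h.valid
  label := h.label
  logical M _ _ x w := by
    rw [logi_mapCoef]
    exact @NetSpec.logical R k ι _ _ sym full nW P ρ lin lout h M _ (Module.compHom M φ) x w
  symm hs w e u v hm := h.symm hs w e u v (atom_mem_mapCoef.1 hm)
  symm_in := h.symm_in


/-- padding with idle wires, each of which goes from the label `0` to the label `full` -/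
theorem NetSpec.pad (h : NetSpec R sym full P ρ lin lout) {m : ℕ} (hfull : Dec sym m full)
    {nW' : ℕ} (hle : nW ≤ nW') :
    ∃ (P' : List (Instr (Fin nW') R k ι)) (ρ' : Fin nW' ≃ Fin nW')
      (lin' lout' : Fin nW' → Matrix ι ι k), NetSpec R sym full P' ρ' lin' lout' ∧
      natoms P' = natoms P + (nW' - nW) * m := by
  classical
  let f : Fin nW ↪ Fin nW' := Fin.castLEEmb hle
  have hf : ∀ w : Fin nW', (∀ a, f a ≠ w) ↔ ¬ w.1 < nW := by
    intro w
    constructor
    · intro h1 h2
      exact h1 ⟨w.1, h2⟩ (Fin.ext rfl)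
    · rintro h1 a rfl
      exact h1 a.2
  let ext : (Fin nW → Matrix ι ι k) → Matrix ι ι k → Fin nW' → Matrix ι ι k :=
    fun l d w => if hw : w.1 < nW then l ⟨w.1, hw⟩ else d
  have ext1 : ∀ l d a, ext l d (f a) = l a := fun l d a => dif_pos a.2
  have ext2 : ∀ l d w, (∀ a, f a ≠ w) → ext l d w = d := fun l d w hw => dif_neg ((hf w).1 hw)
  have v1 : Valid (ext lin 0) (P.map (Instr.rename f)) (ext lout 0) :=
    valid_rename f.injective h.valid _ _ (ext1 _ _) (ext1 _ _) fun w hw => by
      rw [ext2 _ _ _ hw, ext2 _ _ _ hw]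
  obtain ⟨P2, v2, n2, s2, l2⟩ := Run.relabel (R := R) (sym := sym) (l := ext lout 0)
    (l' := ext lout full) (fun w => if w.1 < nW then 0 else m) (by
      intro w
      by_cases hw : w.1 < nW
      · rw [if_pos hw]
        exact Dec.of_eq (by simp only [ext, dif_pos hw])
      · rw [if_neg hw]
        simp only [ext, dif_neg hw, sub_zero]
        exact hfull)
  have hsin : sym → ∀ w, (ext lin 0 w).IsSymm := by
    intro hs w
    by_cases hw : w.1 < nW
    · simp only [ext, dif_pos hw]
      exact h.symm_in hs _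
    · simp only [ext, dif_neg hw]
      exact Matrix.isSymm_zero
  have hsuv : sym → ∀ w e u v, Instr.atom w e u v ∈ P.map (Instr.rename f) ++ P2 → u = v := by
    intro hs w e u v hm
    rcases List.mem_append.1 hm with hm | hm
    · obtain ⟨a, ha⟩ := mem_rename hm
      exact (h.symm hs a e u v ha).1
    · exact s2 hs w e u v hm
  refine ⟨P.map (Instr.rename f) ++ P2, Equiv.Perm.viaFintypeEmbedding ρ f, ext lin 0,
    ext lout full, ⟨v1.append v2, fun w => ?_, fun M _ _ x w => ?_, fun hs w e u v hm => ?_,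
      hsin⟩, ?_⟩
  · by_cases hw : ∃ a, f a = w
    · obtain ⟨a, rfl⟩ := hw
      rw [Equiv.Perm.viaFintypeEmbedding_apply_image, ext1, ext1, h.label]
    · rw [Equiv.Perm.viaFintypeEmbedding_apply_notMem_range _ _ hw]
      push Not at hw
      rw [ext2 _ _ _ hw, ext2 _ _ _ hw, zero_add]
  · have hid : ∀ (y : Fin nW' → M) (z : Fin nW'), logi P2 y z = y z := by
      intro y z
      rw [logi_eq_sum]
      simp only [l2]
      simp [Pi.single_apply]
    rw [logi_append, hid]
    obtain ⟨g1, g2⟩ := logi_rename f.injective P x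
    by_cases hw : ∃ a, f a = w
    · obtain ⟨a, rfl⟩ := hw
      rw [Equiv.Perm.viaFintypeEmbedding_apply_image, g1, h.logical]
    · rw [Equiv.Perm.viaFintypeEmbedding_apply_notMem_range _ _ hw]
      push Not at hw
      exact g2 w hw
  · exact ⟨hsuv hs w e u v hm, (v1.append v2).isSymm (hsin hs) (hsuv hs) w e u v hm⟩
  · rw [natoms_append, natoms_rename, n2]
    congr 1
    rw [Finset.sum_ite, Finset.sum_const_zero, zero_add, Finset.sum_const, smul_eq_mul]
    congr 1
    have h1 := Finset.card_filter_add_card_filter_not (s := (Finset.univ : Finset (Fin nW')))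
      (fun w => w.1 < nW)
    rw [Finset.card_univ, Fintype.card_fin, Fin.card_filter_val_lt, min_eq_right hle] at h1
    omega

end Crest.Agent.X326.Net
private theorem rz_5929610adf : type_of% @_root_.Crest.Agent.X326.Net.Instr.mapCoef.eq_1 := @_root_.Crest.Agent.X326.Net.Instr.mapCoef.eq_1 -- L18
end

-- ▼ part X326/Net/Final
section

/-!
Row 326, M1: the two concrete networks (ground set of 64 points, `m = 2^18` label coordinates,
`W = 2^63` wires), derived from `MainStatement`.
-/

set_option autoImplicit false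

namespace Crest.Agent.X326.Net

open Matrix

theorem K3_smul_one {k η ι : Type} [CommRing k] [DecidableEq η] [DecidableEq ι]
    (e : ι → η × η × η) (he : Function.Injective e) (c : k) :
    K3 e (c • (1 : Matrix η η k)) (c • (1 : Matrix η η k)) (c • (1 : Matrix η η k)) =
      c ^ 3 • (1 : Matrix ι ι k) := by
  ext i j
  simp only [K3, Matrix.of_apply, Matrix.smul_apply, Matrix.one_apply, smul_eq_mul]
  by_cases h : i = j
  · subst h
    simp only [if_true]
    ring
  · rw [if_neg h, mul_zero]
    by_cases h1 : (e i).1 = (e j).1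
    · by_cases h2 : (e i).2.1 = (e j).2.1
      · have h3 : (e i).2.2 ≠ (e j).2.2 := fun h3 =>
          h (he (Prod.ext h1 (Prod.ext h2 h3)))
        rw [if_neg h3, mul_zero, mul_zero]
      · rw [if_neg h2, mul_zero, mul_zero, zero_mul]
    · rw [if_neg h1, mul_zero, zero_mul, zero_mul]

theorem card_tri_64 : Fintype.card (Tri (Fin 64)) = 41664 := by
  rw [Fintype.card_finset_len, Fintype.card_fin]
  norm_num [Nat.choose]

/-- the saving in real form: `s ≤ W m ^ (1 - 2^-40)` -/
theorem count_le_rpow {s W m : ℕ} (hm : m = 2 ^ 18)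
    (h : s * 2 ^ 40 + 13 * (W * m) ≤ W * m * 2 ^ 40) :
    (s : ℝ) ≤ W * (m : ℝ) ^ (1 - 1 / (2 : ℝ) ^ 40) := by
  have hm0 : (0 : ℝ) < m := by rw [hm]; positivity
  have hlog : Real.log m ≤ 13 := by
    rw [hm, Nat.cast_pow, Real.log_pow]
    have := Real.log_two_lt_d9
    push_cast
    linarith
  have h1 : 1 - 13 / (2 : ℝ) ^ 40 ≤ (m : ℝ) ^ (-(1 / (2 : ℝ) ^ 40)) := by
    rw [Real.rpow_def_of_pos hm0]
    have h2 := Real.add_one_le_exp (Real.log m * -(1 / (2 : ℝ) ^ 40))
    have h3 : Real.log m * (1 / (2 : ℝ) ^ 40) ≤ 13 * (1 / (2 : ℝ) ^ 40) :=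
      mul_le_mul_of_nonneg_right hlog (by positivity)
    have h4 : (13 : ℝ) / 2 ^ 40 = 13 * (1 / (2 : ℝ) ^ 40) := by ring
    linarith
  have h5 : (s : ℝ) * 2 ^ 40 + 13 * ((W : ℝ) * m) ≤ W * m * 2 ^ 40 := by exact_mod_cast h
  rw [sub_eq_add_neg, Real.rpow_add hm0, Real.rpow_one, ← mul_assoc]
  have hWm : (0 : ℝ) ≤ (W : ℝ) * m := by positivity
  calc (s : ℝ) ≤ (W : ℝ) * m * (1 - 13 / (2 : ℝ) ^ 40) := by
        rw [mul_sub, mul_one, le_sub_iff_add_le, ← mul_div_assoc, add_div' _ _ _ (by positivity),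
          div_le_iff₀ (by positivity)]
        linarith
    _ ≤ _ := mul_le_mul_of_nonneg_left h1 hWm

/-- the generic network on 64 points, padded to `2^63` wires -/
theorem net_of_data (hmain : MainStatement) {R k C : Type} [CommRing R] [CommRing k] [Fintype C]
    {sym : Prop} (D : NetData R k (Tri (Fin 64)) C (Fin 64) 62 sym) (c : k)
    (hc : D.eps = c • 1) (c0 : ℕ) (hc0 : c0 ≤ 1) (hC : Fintype.card C + c0 ≤ 65)
    {m : ℕ} (hm : m = 2 ^ 18)
    (h0 : ∀ U : Matrix (Fin m) (Fin m) k, Dec sym 1 U → Dec sym c0 (U + U))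
    {W : ℕ} (hW : W = 2 ^ 63) :
    ∃ (P : List (Instr (Fin W) R k (Fin m))) (ρ : Fin W ≃ Fin W)
      (lin lout : Fin W → Matrix (Fin m) (Fin m) k),
      NetSpec R sym (c ^ 3 • 1) P ρ lin lout ∧
        natoms P * 2 ^ 40 + 13 * (W * m) ≤ W * m * 2 ^ 40 := by
  let e : Fin m ≃ Fin 64 × Fin 64 × Fin 64 := Fintype.equivOfCardEq (by simp [hm])
  obtain ⟨nW, P, ρ, lin, lout, hspec, -, hle, hcount⟩ :=
    hmain R k (Tri (Fin 64)) C (Fin 64) (Fin m) 62 sym D e c0 h0
  have hfull : Dec sym m (K3 e D.eps D.eps D.eps) :=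
    (Dec.K3 e D.dec_eps D.dec_eps D.dec_eps).congr (by rw [hm]; norm_num) rfl
  rw [card_tri_64] at hle hcount
  have hle' : nW ≤ W := by
    rw [hW]
    refine hle.trans ?_
    have : Fintype.card C ≤ 65 := by omega
    calc _ ≤ 2 * 41664 ^ 3 + 3 * 41664 ^ 2 * (41664 ^ 2 + 65) := by gcongr
      _ ≤ 2 ^ 63 := by norm_num
  obtain ⟨P', ρ', lin', lout', hspec', hcount'⟩ := hspec.pad hfull hle'
  rw [hc, K3_smul_one e e.injective] at hspec'
  refine ⟨P', ρ', lin', lout', hspec', ?_⟩
  obtain ⟨r, rfl⟩ := Nat.exists_eq_add_of_le hle'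
  rw [Nat.add_sub_cancel_left] at hcount'
  have hnW : nW = 2 ^ 63 - r := by omega
  have hr : r ≤ 2 ^ 63 := by omega
  generalize Fintype.card C = cC at *
  generalize natoms P = s at *
  generalize natoms P' = s' at *
  subst hm
  norm_num at hcount hcount' hW ⊢
  interval_cases c0 <;> omega

/-- **The bit network**: scalars `ZMod 2`, integer labels, every content gains `216 • 1`. -/
theorem netA_of_main (hmain : MainStatement) :
    ∃ (W m : ℕ), W = 2 ^ 63 ∧ m = 2 ^ 18 ∧
      ∃ (P : List (Instr (Fin W) (ZMod 2) ℤ (Fin m))) (ρ : Fin W ≃ Fin W)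
        (lin lout : Fin W → Matrix (Fin m) (Fin m) ℤ),
        NetSpec (ZMod 2) False ((216 : ℤ) • 1) P ρ lin lout ∧
          natoms P * 2 ^ 40 + 13 * (W * m) ≤ W * m * 2 ^ 40 ∧
          (natoms P : ℝ) ≤ W * (m : ℝ) ^ (1 - 1 / (2 : ℝ) ^ 40) := by
  obtain ⟨W, hW⟩ : ∃ W : ℕ, W = 2 ^ 63 := ⟨_, rfl⟩
  obtain ⟨m, hm⟩ : ∃ m : ℕ, m = 2 ^ 18 := ⟨_, rfl⟩
  obtain ⟨P, ρ, lin, lout, hspec, hcount⟩ := net_of_data hmain
    (dataA (η := Fin 64) (g := 62) (by simp)) (6 : ℤ) rfl 1 le_rfl (by simp) hm (by
      rintro U ⟨L, hL, -, rfl⟩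
      obtain ⟨q, rfl⟩ := List.length_eq_one_iff.1 hL
      refine (Dec.atom (q.1 + q.1) q.2 fun h => h.elim).congr rfl ?_
      simp [add_vecMulVec]) hW
  refine ⟨W, m, hW, hm, P, ρ, lin, lout, ?_, hcount, count_le_rpow hm hcount⟩
  have : (6 : ℤ) ^ 3 = 216 := by norm_num
  rwa [this] at hspec

/-- the value of a symbolic coefficient `(a, j)`: `a * hf ^ j` -/
def coefVal {R : Type} [CommRing R] (hf : R) (q : ℤ × ℕ) : R := (q.1 : R) * hf ^ q.2

/-- **The butterfly network**: one fixed program with symbolic coefficients, labels over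
`ZMod 2`, symmetric atoms, every content gains the label `1`; valid over every commutative ring
with a half `hf`. -/
theorem netB_of_main (hmain : MainStatement) :
    ∃ (W m : ℕ), W = 2 ^ 63 ∧ m = 2 ^ 18 ∧
      ∃ (P : List (Instr (Fin W) (ℤ × ℕ) (ZMod 2) (Fin m))) (ρ : Fin W ≃ Fin W)
        (lin lout : Fin W → Matrix (Fin m) (Fin m) (ZMod 2)),
        (∀ (R : Type) [CommRing R] (hf : R), 2 * hf = 1 →
          NetSpec R True 1 (P.map (Instr.mapCoef (coefVal hf))) ρ lin lout) ∧
          natoms P * 2 ^ 40 + 13 * (W * m) ≤ W * m * 2 ^ 40 ∧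
          (natoms P : ℝ) ≤ W * (m : ℝ) ^ (1 - 1 / (2 : ℝ) ^ 40) := by
  obtain ⟨W, hW⟩ : ∃ W : ℕ, W = 2 ^ 63 := ⟨_, rfl⟩
  obtain ⟨m, hm⟩ : ∃ m : ℕ, m = 2 ^ 18 := ⟨_, rfl⟩
  let R0 : Type := Localization.Away (2 : ℤ)
  have h2 : (2 : R0) * IsLocalization.Away.invSelf (2 : ℤ) = 1 := by
    have := IsLocalization.Away.mul_invSelf (S := R0) (2 : ℤ)
    simpa using this
  obtain ⟨P, ρ, lin, lout, hspec, hcount⟩ := net_of_data hmain
    (dataB (η := Fin 64) (g := 62) _ h2 (by simp) (by norm_num)) (1 : ZMod 2)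
    (by rw [one_smul]; rfl) 0 (by norm_num) (by simp) hm (by
      intro U _
      refine Dec.zero.congr rfl ?_
      ext i j
      exact (CharTwo.add_self_eq_zero _).symm) hW
  rw [one_pow, one_smul] at hspec
  have hsurj : ∀ c : R0, ∃ q : ℤ × ℕ, c * 2 ^ q.2 = (q.1 : R0) := by
    intro c
    obtain ⟨n, a, h⟩ := IsLocalization.Away.surj (S := R0) (2 : ℤ) c
    exact ⟨(a, n), by simpa using h⟩
  choose sc hsc using hsurj
  refine ⟨W, m, hW, hm, P.map (Instr.mapCoef sc), ρ, lin, lout, fun R _ hf hhf => ?_,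
    by rwa [natoms_mapCoef], by rw [natoms_mapCoef]; exact count_le_rpow hm hcount⟩
  have hu : IsUnit ((Int.castRingHom R) 2) := by
    refine IsUnit.of_mul_eq_one hf ?_
    simpa using hhf
  let φ : R0 →+* R := IsLocalization.Away.lift (2 : ℤ) hu
  have hφ : (coefVal hf) ∘ sc = φ := by
    funext c
    have h1 := congrArg φ (hsc c)
    rw [map_mul, map_pow, map_intCast, map_ofNat] at h1
    simp only [Function.comp, coefVal]
    rw [← h1, mul_assoc, ← mul_pow, hhf, one_pow, mul_one]
  have := hspec.mapCoef φ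
  rw [List.map_map]
  convert this using 2
  funext i
  simp only [Function.comp, Instr.mapCoef_mapCoef, hφ]

end Crest.Agent.X326.Net
end

-- ▼ part X326/Net/Nets

/-!
Row 326, M1: the two concrete networks, unconditionally.
-/

set_option autoImplicit false

namespace Crest.Agent.X326.Net

/-- **The bit network** (`W = 2^63` wires, `m = 2^18` label coordinates). -/
theorem netA :
    ∃ (W m : ℕ), W = 2 ^ 63 ∧ m = 2 ^ 18 ∧
      ∃ (P : List (Instr (Fin W) (ZMod 2) ℤ (Fin m))) (ρ : Fin W ≃ Fin W)
        (lin lout : Fin W → Matrix (Fin m) (Fin m) ℤ),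
        NetSpec (ZMod 2) False ((216 : ℤ) • 1) P ρ lin lout ∧
          natoms P * 2 ^ 40 + 13 * (W * m) ≤ W * m * 2 ^ 40 ∧
          (natoms P : ℝ) ≤ W * (m : ℝ) ^ (1 - 1 / (2 : ℝ) ^ 40) :=
  netA_of_main exists_network

/-- **The butterfly network** (`W = 2^63` wires, `m = 2^18` label coordinates). -/
theorem netB :
    ∃ (W m : ℕ), W = 2 ^ 63 ∧ m = 2 ^ 18 ∧
      ∃ (P : List (Instr (Fin W) (ℤ × ℕ) (ZMod 2) (Fin m))) (ρ : Fin W ≃ Fin W)
        (lin lout : Fin W → Matrix (Fin m) (Fin m) (ZMod 2)),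
        (∀ (R : Type) [CommRing R] (hf : R), 2 * hf = 1 →
          NetSpec R True 1 (P.map (Instr.mapCoef (coefVal hf))) ρ lin lout) ∧
          natoms P * 2 ^ 40 + 13 * (W * m) ≤ W * m * 2 ^ 40 ∧
          (natoms P : ℝ) ≤ W * (m : ℝ) ^ (1 - 1 / (2 : ℝ) ^ 40) :=
  netB_of_main exists_network

end Crest.Agent.X326.Net
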